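import Mathlib

/-!
Moments of random sign sums: the two-sided bound used for the lower bound on dimension reduction.
-/

namespace Vale.Agent.P249.Lower

open Finset

/-- The sign `±1` of a Boolean. -/
def sg (b : Bool) : ℝ := if b then 1 else -1

lemma sg_sq (b : Bool) : sg b * sg b = 1 := by cases b <;> simp [sg]

/-- The constant of the moment bound. -/
noncomputable def momC (p : ℝ) : ℝ := 2 * p ^ p * Real.exp (1 / 2)

lemma momC_one_le {p : ℝ} (hp : 1 ≤ p) : 1 ≤ momC p := by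
  have h1 : 1 ≤ p ^ p := Real.one_le_rpow hp (by linarith)
  have h2 : (1 : ℝ) ≤ Real.exp (1 / 2) := Real.one_le_exp (by norm_num)
  have h3 := one_le_mul_of_one_le_of_one_le h1 h2
  unfold momC
  linarith

lemma momC_pos {p : ℝ} (hp : 1 ≤ p) : 0 < momC p := zero_lt_one.trans_le (momC_one_le hp)

lemma abs_rpow_le_exp {p : ℝ} (hp : 1 ≤ p) (z : ℝ) :
    |z| ^ p ≤ p ^ p * (Real.exp z + Real.exp (-z)) := by
  have hp0 : 0 < p := by linarith
  have h1 : |z| ≤ p * Real.exp (|z| / p) := by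
    have := Real.add_one_le_exp (|z| / p)
    calc |z| = p * (|z| / p) := by field_simp
      _ ≤ _ := by gcongr; linarith
  calc |z| ^ p ≤ (p * Real.exp (|z| / p)) ^ p := by gcongr
    _ = p ^ p * Real.exp |z| := by
      rw [Real.mul_rpow hp0.le (Real.exp_nonneg _), ← Real.exp_mul, div_mul_cancel₀ _ hp0.ne']
    _ ≤ _ := by
      gcongr
      rcases abs_choice z with h | h <;> rw [h] <;>
        linarith [Real.exp_pos z, Real.exp_pos (-z)]

lemma sum_exp_signs {k : ℕ} (a : Fin k → ℝ) :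
    ∑ ε : Fin k → Bool, Real.exp (∑ i, a i * sg (ε i)) ≤
      2 ^ k * Real.exp ((∑ i, a i ^ 2) / 2) := by
  calc ∑ ε : Fin k → Bool, Real.exp (∑ i, a i * sg (ε i))
      = ∏ i, ∑ b : Bool, Real.exp (a i * sg b) := by
        simp_rw [Real.exp_sum]
        exact (Fintype.prod_sum (fun i b => Real.exp (a i * sg b))).symm
    _ ≤ ∏ i, (2 * Real.exp (a i ^ 2 / 2)) := by
        refine prod_le_prod (fun i _ => sum_nonneg fun b _ => (Real.exp_pos _).le) fun i _ => ?_
        have h := Real.cosh_le_exp_half_sq (a i)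
        rw [Real.cosh_eq] at h
        simp [sg]
        linarith
    _ = _ := by rw [prod_mul_distrib, ← Real.exp_sum, sum_div]; simp

lemma sum_sq_signs {k : ℕ} (a : Fin k → ℝ) :
    ∑ ε : Fin k → Bool, (∑ i, a i * sg (ε i)) ^ 2 = 2 ^ k * ∑ i, a i ^ 2 := by
  induction k with
  | zero => simp
  | succ k ih =>
    rw [Fin.sum_univ_succ (f := fun i => a i ^ 2),
      ← (Fin.consEquiv fun _ => Bool).sum_comp, Fintype.sum_prod_type]
    simp only [Fin.consEquiv_apply, Fin.sum_univ_succ, Fin.cons_zero, Fin.cons_succ,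
      Fintype.sum_bool]
    rw [← sum_add_distrib]
    calc ∑ ε : Fin k → Bool, ((a 0 * sg true + ∑ i, a i.succ * sg (ε i)) ^ 2 +
          (a 0 * sg false + ∑ i, a i.succ * sg (ε i)) ^ 2)
        = ∑ ε : Fin k → Bool, (2 * a 0 ^ 2 + 2 * (∑ i, a i.succ * sg (ε i)) ^ 2) :=
          sum_congr rfl fun ε _ => by simp only [sg, if_true, Bool.false_eq_true, if_false]; ring
      _ = _ := by
          rw [sum_add_distrib, sum_const, ← mul_sum, ih (fun i => a i.succ)]
          simp [pow_succ]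
          ring

lemma moment_le {k : ℕ} {p : ℝ} (hp : 1 ≤ p) (a : Fin k → ℝ) :
    ∑ ε : Fin k → Bool, |∑ i, a i * sg (ε i)| ^ p ≤
      2 ^ k * momC p * Real.sqrt (∑ i, a i ^ 2) ^ p := by
  have hp0 : 0 < p := by linarith
  set s := Real.sqrt (∑ i, a i ^ 2) with hs
  rcases (Real.sqrt_nonneg (∑ i, a i ^ 2)).eq_or_lt with h0 | h0
  · rw [← hs] at h0
    have ha : ∀ i, a i = 0 := fun i => by
      have h1 : ∑ i, a i ^ 2 = 0 :=
        (Real.sqrt_eq_zero (sum_nonneg fun i _ => sq_nonneg _)).1 h0.symm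
      exact pow_eq_zero_iff (n := 2) two_ne_zero |>.1
        ((sum_eq_zero_iff_of_nonneg fun i _ => sq_nonneg (a i)).1 h1 i (mem_univ _))
    simp [ha, ← h0, Real.zero_rpow hp0.ne']
  · rw [← hs] at h0
    have hb : ∑ i, (a i / s) ^ 2 = 1 := by
      simp only [div_pow, ← sum_div, hs, Real.sq_sqrt (sum_nonneg fun i _ => sq_nonneg (a i))]
      refine div_self fun h => h0.ne' ?_
      rw [hs, h, Real.sqrt_zero]
    have hone : ∑ ε : Fin k → Bool, |∑ i, a i / s * sg (ε i)| ^ p ≤ 2 ^ k * momC p := by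
      have e1 := sum_exp_signs (fun i => a i / s)
      have e2 := sum_exp_signs (fun i => -(a i / s))
      simp only [neg_mul, sum_neg_distrib, neg_sq, hb] at e1 e2
      refine (sum_le_sum fun ε _ => abs_rpow_le_exp hp _).trans ?_
      rw [← mul_sum, sum_add_distrib]
      calc p ^ p * _ ≤ p ^ p * (2 ^ k * Real.exp (1 / 2) + 2 ^ k * Real.exp (1 / 2)) := by gcongr
        _ = _ := by unfold momC; ring
    calc ∑ ε : Fin k → Bool, |∑ i, a i * sg (ε i)| ^ p
        = (∑ ε : Fin k → Bool, |∑ i, a i / s * sg (ε i)| ^ p) * s ^ p := by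
          rw [sum_mul]
          refine sum_congr rfl fun ε _ => ?_
          rw [← Real.mul_rpow (abs_nonneg _) h0.le]
          congr 1
          rw [← abs_of_pos h0, ← abs_mul, sum_mul, abs_of_pos h0]
          congr 1
          exact sum_congr rfl fun i _ => by field_simp
      _ ≤ _ := by gcongr

lemma le_moment {k : ℕ} {p : ℝ} (hp : 2 ≤ p) (a : Fin k → ℝ) :
    2 ^ k * Real.sqrt (∑ i, a i ^ 2) ^ p ≤ ∑ ε : Fin k → Bool, |∑ i, a i * sg (ε i)| ^ p := by
  have h := Real.rpow_arith_mean_le_arith_mean_rpow univ (fun _ : Fin k → Bool => (1 : ℝ) / 2 ^ k)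
    (fun ε => (∑ i, a i * sg (ε i)) ^ 2) (fun _ _ => by positivity) (by simp)
    (fun _ _ => sq_nonneg _) (show 1 ≤ p / 2 by linarith)
  rw [← mul_sum, ← mul_sum, sum_sq_signs, one_div, inv_mul_cancel_left₀ (by positivity)] at h
  have e : ∀ z : ℝ, (z ^ 2) ^ (p / 2) = |z| ^ p := fun z => by
    rw [← sq_abs, ← Real.rpow_natCast, ← Real.rpow_mul (abs_nonneg z)]
    norm_num [mul_div_cancel₀]
  simp only [e] at h
  rw [Real.sqrt_eq_rpow, ← Real.rpow_mul (sum_nonneg fun i _ => sq_nonneg _),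
    show 1 / 2 * p = p / 2 by ring]
  calc 2 ^ k * _ ≤ 2 ^ k * ((2 ^ k : ℝ)⁻¹ * _) := by gcongr
    _ = _ := by rw [mul_inv_cancel_left₀ (by positivity)]

end Vale.Agent.P249.Lower
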