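import Mathlib
import Vale.Agent.P249.LowerSigns

/-!
A Lipschitz function on Euclidean space changes, on average over translations and sign
directions, by the linear amount over a segment of unit length.
-/

namespace Vale.Agent.P249.Lower

open Finset MeasureTheory Filter Metric
open scoped Topology NNReal

/-- Euclidean space of dimension `k`. -/
abbrev Euc (k : ℕ) := EuclideanSpace ℝ (Fin k)

variable {k : ℕ}

/-- The unit vector with coordinates `±1/√k`. -/
noncomputable def dir (ε : Fin k → Bool) : Euc k :=
  (Real.sqrt k)⁻¹ • WithLp.toLp 2 (fun i => sg (ε i))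

lemma norm_dir (hk : 1 ≤ k) (ε : Fin k → Bool) : ‖dir ε‖ = 1 := by
  have : (0 : ℝ) < Real.sqrt k := Real.sqrt_pos.2 (by exact_mod_cast hk)
  rw [dir, norm_smul, EuclideanSpace.norm_eq]
  simp [Real.norm_eq_abs, pow_two, sg_sq, abs_of_pos this, this.ne']

lemma sum_abs_apply_dir {p : ℝ} (hp : 1 ≤ p) {D : ℝ} (L : Euc k →L[ℝ] ℝ)
    (hL : ‖L‖ ≤ D) :
    ∑ ε : Fin k → Bool, |L (dir ε)| ^ p ≤ 2 ^ k * momC p * (D / Real.sqrt k) ^ p := by
  set a : Fin k → ℝ := fun i => L (EuclideanSpace.single i 1) with ha
  have hexp : ∀ w : Euc k, L w = ∑ i, w i * a i := fun w => by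
    conv_lhs => rw [← (EuclideanSpace.basisFun (Fin k) ℝ).sum_repr w]
    simp [map_sum, ha]
  have hS : Real.sqrt (∑ i, a i ^ 2) ≤ D := by
    have h1 := L.le_opNorm (WithLp.toLp 2 a)
    have h2 : L (WithLp.toLp 2 a) = ∑ i, a i ^ 2 := by
      rw [hexp]
      exact sum_congr rfl fun i _ => (pow_two _).symm
    rw [h2, EuclideanSpace.norm_eq] at h1
    simp only [Real.norm_eq_abs, sq_abs] at h1
    have h0 : 0 ≤ ∑ i, a i ^ 2 := sum_nonneg fun i _ => sq_nonneg _
    rw [abs_of_nonneg h0] at h1
    rcases (Real.sqrt_nonneg (∑ i, a i ^ 2)).eq_or_lt with h | h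
    · rw [← h]; exact (norm_nonneg _).trans hL
    · refine le_trans ?_ hL
      refine le_of_mul_le_mul_right ?_ h
      rwa [Real.mul_self_sqrt h0]
  calc ∑ ε : Fin k → Bool, |L (dir ε)| ^ p
      = (∑ ε : Fin k → Bool, |∑ i, a i * sg (ε i)| ^ p) * ((Real.sqrt k)⁻¹) ^ p := by
        rw [sum_mul]
        refine sum_congr rfl fun ε _ => ?_
        rw [← Real.mul_rpow (abs_nonneg _) (by positivity), hexp]
        congr 1
        rw [← abs_of_nonneg (inv_nonneg.2 (Real.sqrt_nonneg (k : ℝ))), ← abs_mul, sum_mul]
        congr 1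
        exact sum_congr rfl fun i _ => by simp [dir]; ring
    _ ≤ 2 ^ k * momC p * D ^ p * ((Real.sqrt k)⁻¹) ^ p := by
        refine mul_le_mul_of_nonneg_right ((moment_le hp a).trans ?_) (by positivity)
        exact mul_le_mul_of_nonneg_left (Real.rpow_le_rpow (Real.sqrt_nonneg _) hS (by linarith))
          (by have := momC_pos hp; positivity)
    _ = _ := by
        rw [mul_assoc, ← Real.mul_rpow ((norm_nonneg _).trans hL) (by positivity), div_eq_mul_inv]

lemma segment_le {p : ℝ} (hp : 1 ≤ p) {D : ℝ≥0} {h : Euc k → ℝ} (hh : LipschitzWith D h)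
    (v : Euc k) (hv : ‖v‖ ≤ 1) (R : ℝ) :
    ∫ x in closedBall 0 R, |h (x + v) - h x| ^ p ≤
      ∫ y in closedBall 0 (R + 1), |fderiv ℝ h y v| ^ p := by
  have hp0 : 0 < p := by linarith
  have hhc : Continuous h := hh.continuous
  let G : ℕ → Euc k → ℝ := fun M y => |(M : ℝ) * (h (y + (M : ℝ)⁻¹ • v) - h y)| ^ p
  have hGc : ∀ M, Continuous (G M) := fun M =>
    Continuous.rpow_const (by fun_prop) (fun _ => Or.inr hp0.le)
  have hGb : ∀ M : ℕ, 1 ≤ M → ∀ y, G M y ≤ (D : ℝ) ^ p := fun M hM y => by
    have hM0 : (0 : ℝ) < M := by exact_mod_cast hM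
    refine Real.rpow_le_rpow (abs_nonneg _) ?_ hp0.le
    rw [abs_mul, abs_of_pos hM0]
    have := hh.dist_le_mul (y + (M : ℝ)⁻¹ • v) y
    rw [Real.dist_eq, dist_eq_norm, add_sub_cancel_left, norm_smul, Real.norm_eq_abs,
      abs_of_pos (inv_pos.2 hM0)] at this
    calc (M : ℝ) * |h (y + (M : ℝ)⁻¹ • v) - h y| ≤ M * (D * ((M : ℝ)⁻¹ * ‖v‖)) := by gcongr
      _ = D * ‖v‖ := by field_simp
      _ ≤ D := mul_le_of_le_one_right D.coe_nonneg hv
  have step : ∀ M : ℕ, 1 ≤ M → ∫ x in closedBall 0 R, |h (x + v) - h x| ^ p ≤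
      ∫ y in closedBall 0 (R + 1), G M y := by
    intro M hM
    have hM0 : (0 : ℝ) < M := by exact_mod_cast hM
    have hint : ∀ w : Euc k, IntegrableOn (fun x => G M (x + w)) (closedBall 0 R) := fun w =>
      ((hGc M).comp (by fun_prop)).continuousOn.integrableOn_compact (isCompact_closedBall _ _)
    calc ∫ x in closedBall 0 R, |h (x + v) - h x| ^ p
        ≤ ∫ x in closedBall 0 R, (M : ℝ)⁻¹ * ∑ j ∈ range M, G M (x + ((j : ℝ) / M) • v) := by
          refine setIntegral_mono_on ?_ ?_ measurableSet_closedBall fun x _ => ?_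
          · exact (Continuous.rpow_const (by fun_prop) (fun _ => Or.inr hp0.le)).continuousOn
              |>.integrableOn_compact (isCompact_closedBall _ _)
          · exact (Integrable.const_mul (integrable_finsetSum _ fun j _ => hint _) _)
          have htel : h (x + v) - h x = ∑ j ∈ range M,
              (h (x + (((j : ℝ) + 1) / M) • v) - h (x + ((j : ℝ) / M) • v)) := by
            have := sum_range_sub (fun j : ℕ => h (x + ((j : ℝ) / M) • v)) M
            simp only [Nat.cast_add, Nat.cast_one] at this
            rw [this]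
            simp [hM0.ne']
          rw [htel]
          refine ((Real.rpow_le_rpow (abs_nonneg _) (abs_sum_le_sum_abs _ _) hp0.le).trans
            (Real.rpow_sum_le_const_mul_sum_rpow_of_nonneg _ hp fun j _ => abs_nonneg _)).trans
            (le_of_eq ?_)
          rw [card_range, mul_sum, mul_sum]
          refine sum_congr rfl fun j _ => ?_
          show _ = (M : ℝ)⁻¹ * |(M : ℝ) * _| ^ p
          rw [abs_mul, abs_of_pos hM0, Real.mul_rpow hM0.le (abs_nonneg _),
            Real.rpow_sub_one hM0.ne', add_assoc, ← add_smul, add_div, one_div]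
          ring
      _ = (M : ℝ)⁻¹ * ∑ j ∈ range M, ∫ x in closedBall 0 R, G M (x + ((j : ℝ) / M) • v) := by
          rw [integral_const_mul, integral_finsetSum _ fun j _ => hint _]
      _ ≤ (M : ℝ)⁻¹ * ∑ j ∈ range M, ∫ y in closedBall 0 (R + 1), G M y := by
          refine mul_le_mul_of_nonneg_left (sum_le_sum fun j hj => ?_) (by positivity)
          set w := ((j : ℝ) / M) • v with hw
          have hwn : ‖w‖ ≤ 1 := by
            rw [hw, norm_smul, Real.norm_eq_abs, abs_of_nonneg (by positivity)]
            refine mul_le_one₀ ?_ (norm_nonneg _) hv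
            rw [div_le_one hM0]
            exact_mod_cast (mem_range.1 hj).le
          rw [← integral_indicator measurableSet_closedBall,
            ← integral_indicator (μ := volume) (f := G M) measurableSet_closedBall,
            ← integral_add_right_eq_self (fun y => (closedBall (0 : Euc k) (R + 1)).indicator (G M) y) w]
          refine integral_mono ((integrable_indicator_iff measurableSet_closedBall).2 (hint w))
            ?_ fun x => ?_
          · exact (((integrable_indicator_iff measurableSet_closedBall).2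
              ((hGc M).continuousOn.integrableOn_compact (isCompact_closedBall _ _)))).comp_add_right w
          · by_cases hx : x ∈ closedBall (0 : Euc k) R
            · have hxw : x + w ∈ closedBall (0 : Euc k) (R + 1) := by
                rw [mem_closedBall_zero_iff] at hx ⊢
                linarith [norm_add_le x w]
              rw [Set.indicator_of_mem hx, Set.indicator_of_mem hxw]
            · rw [Set.indicator_of_notMem hx]
              exact Set.indicator_nonneg (fun y _ => by positivity) _
      _ = _ := by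
          rw [sum_const, card_range, nsmul_eq_mul]
          field_simp
  have hlim : Tendsto (fun M : ℕ => ∫ y in closedBall 0 (R + 1), G M y) atTop
      (𝓝 (∫ y in closedBall 0 (R + 1), |fderiv ℝ h y v| ^ p)) := by
    refine tendsto_integral_filter_of_dominated_convergence (fun _ => (D : ℝ) ^ p)
      (Eventually.of_forall fun M => (hGc M).aestronglyMeasurable) ?_ ?_ ?_
    · filter_upwards [eventually_ge_atTop 1] with M hM
      exact Eventually.of_forall fun y => by
        rw [Real.norm_eq_abs, abs_of_nonneg (by positivity)]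
        exact hGb M hM y
    · exact continuous_const.continuousOn.integrableOn_compact (isCompact_closedBall _ _)
    · filter_upwards [ae_restrict_of_ae hh.ae_differentiableAt] with y hy
      have hs := (hy.hasFDerivAt.hasLineDerivAt v).tendsto_slope_zero
      have ht : Tendsto (fun M : ℕ => (M : ℝ)⁻¹) atTop (𝓝[≠] 0) := by
        refine tendsto_nhdsWithin_iff.2 ⟨tendsto_inv_atTop_nhds_zero_nat, ?_⟩
        filter_upwards [eventually_ge_atTop 1] with M hM
        exact inv_ne_zero (by exact_mod_cast (by omega : M ≠ 0))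
      have hc := hs.comp ht
      simp only [Function.comp_def, inv_inv, smul_eq_mul] at hc
      exact ((continuous_abs.tendsto _).comp hc).rpow_const (Or.inr hp0.le)
  refine ge_of_tendsto hlim ?_
  filter_upwards [eventually_ge_atTop 1] with M hM using step M hM

lemma sum_segments_le (hk : 1 ≤ k) {p : ℝ} (hp : 1 ≤ p) {D : ℝ≥0} {h : Euc k → ℝ}
    (hh : LipschitzWith D h) (R : ℝ) :
    ∫ x in closedBall 0 R, ∑ ε : Fin k → Bool, |h (x + dir ε) - h x| ^ p ≤
      volume.real (closedBall (0 : Euc k) (R + 1)) *
        (2 ^ k * momC p * ((D : ℝ) / Real.sqrt k) ^ p) := by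
  have hp0 : 0 < p := by linarith
  have hhc : Continuous h := hh.continuous
  rw [integral_finsetSum _ fun ε _ =>
    ((Continuous.rpow_const (by fun_prop) (fun _ => Or.inr hp0.le)).continuousOn
      |>.integrableOn_compact (isCompact_closedBall _ _))]
  refine (sum_le_sum fun ε _ => segment_le hp hh (dir ε) (norm_dir hk ε).le R).trans ?_
  have hint : ∀ ε : Fin k → Bool, IntegrableOn (fun y => |fderiv ℝ h y (dir ε)| ^ p)
      (closedBall (0 : Euc k) (R + 1)) := fun ε => by
    refine Integrable.mono' (g := fun _ => (D : ℝ) ^ p)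
      (continuous_const.continuousOn.integrableOn_compact (isCompact_closedBall _ _))
      (((measurable_fderiv_apply_const ℝ h (dir ε)).abs.pow_const p).aestronglyMeasurable)
      (Eventually.of_forall fun y => ?_)
    rw [Real.norm_eq_abs, abs_of_nonneg (by positivity)]
    refine Real.rpow_le_rpow (abs_nonneg _) ?_ hp0.le
    have := (fderiv ℝ h y).le_opNorm (dir ε)
    rw [Real.norm_eq_abs, norm_dir hk, mul_one] at this
    exact this.trans (norm_fderiv_le_of_lipschitz ℝ hh)
  rw [← integral_finsetSum _ fun ε _ => hint ε]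
  calc ∫ y in closedBall 0 (R + 1), ∑ ε : Fin k → Bool, |fderiv ℝ h y (dir ε)| ^ p
      ≤ ∫ _ in closedBall (0 : Euc k) (R + 1), 2 ^ k * momC p * ((D : ℝ) / Real.sqrt k) ^ p :=
        setIntegral_mono_on (integrable_finsetSum _ fun ε _ => hint ε)
          (continuous_const.continuousOn.integrableOn_compact (isCompact_closedBall _ _))
          measurableSet_closedBall
          fun y _ => sum_abs_apply_dir hp _ (norm_fderiv_le_of_lipschitz ℝ hh)
    _ = _ := by rw [setIntegral_const, smul_eq_mul]

end Vale.Agent.P249.Lower
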