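import Mathlib
import Vale.Agent.P249.LowerAnalysis

/-!
The nonlinear dimension bound for fine nets of a Euclidean ball.
-/

namespace Vale.Agent.P249.Lower

open Finset MeasureTheory Metric
open scoped NNReal

lemma sum_rpow_le_card {d : ℕ} {p : ℝ} (hp : 1 ≤ p) {a : Fin d → ℝ} {b : ℝ} (hb : 0 ≤ b)
    (ha : ∀ i, |a i| ≤ b) : (∑ i, |a i| ^ p) ^ (1 / p) ≤ d * b := by
  have hp0 : 0 < p := by linarith
  calc (∑ i, |a i| ^ p) ^ (1 / p) ≤ ((d : ℝ) * b ^ p) ^ (1 / p) := by
        gcongr
        simpa using sum_le_sum (s := univ) fun i _ =>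
          Real.rpow_le_rpow (abs_nonneg (a i)) (ha i) hp0.le
    _ = (d : ℝ) ^ (1 / p) * b := by
        rw [Real.mul_rpow (Nat.cast_nonneg _) (by positivity), ← Real.rpow_mul hb,
          mul_one_div_cancel hp0.ne', Real.rpow_one]
    _ ≤ _ := by
        refine mul_le_mul_of_nonneg_right ?_ hb
        rcases Nat.eq_zero_or_pos d with rfl | hd
        · simp [Real.zero_rpow (inv_ne_zero hp0.ne')]
        · exact (Real.rpow_le_rpow_of_exponent_le (by exact_mod_cast hd)
            (by rw [div_le_one hp0]; exact hp)).trans_eq (Real.rpow_one _)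

/-- A set that is `ρ`-dense in the ball of radius `k + 1` needs `d` of order `k^(p/2)`. -/
theorem net_bound {k d : ℕ} (hk : 1 ≤ k) {p : ℝ} (hp : 1 ≤ p) {D : ℝ} (hD : 0 ≤ D) {ρ : ℝ}
    (G : Set (Euc k)) (f : Euc k → Fin d → ℝ)
    (hdense : ∀ z ∈ closedBall (0 : Euc k) (k + 1), ∃ x ∈ G, ‖z - x‖ ≤ ρ)
    (hlow : ∀ x ∈ G, ∀ y ∈ G, ‖x - y‖ ≤ (∑ i, |f x i - f y i| ^ p) ^ (1 / p))
    (hup : ∀ x ∈ G, ∀ y ∈ G, (∑ i, |f x i - f y i| ^ p) ^ (1 / p) ≤ D * ‖x - y‖)
    (hρ : 4 * d * D * ρ + 4 * ρ ≤ 1) :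
    Real.sqrt k ^ p ≤ 2 ^ p * Real.exp 1 * momC p * D ^ p * d := by
  have hp0 : 0 < p := by linarith
  set Dn : ℝ≥0 := ⟨D, hD⟩ with hDn
  have hcoord : ∀ i : Fin d, ∃ F : Euc k → ℝ, LipschitzWith Dn F ∧
      Set.EqOn (fun x => f x i) F G := fun i => by
    refine (LipschitzOnWith.of_dist_le_mul fun x hx y hy => ?_).extend_real
    rw [Real.dist_eq, dist_eq_norm]
    refine le_trans ?_ (hup x hx y hy)
    calc |f x i - f y i| = (|f x i - f y i| ^ p) ^ (1 / p) := by
          rw [← Real.rpow_mul (abs_nonneg _), mul_one_div_cancel hp0.ne', Real.rpow_one]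
      _ ≤ _ := by
          refine Real.rpow_le_rpow (by positivity) ?_ (by positivity)
          exact single_le_sum (f := fun j => |f x j - f y j| ^ p) (fun j _ => by positivity)
            (mem_univ i)
  choose F hF hFe using hcoord
  have hlower : ∀ x ∈ closedBall (0 : Euc k) k, ∀ ε : Fin k → Bool,
      (1 / 2 : ℝ) ^ p ≤ ∑ i, |F i (x + dir ε) - F i x| ^ p := by
    intro x hx ε
    rw [mem_closedBall_zero_iff] at hx
    obtain ⟨a, ha, hxa⟩ := hdense x (by rw [mem_closedBall_zero_iff]; linarith)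
    obtain ⟨b, hb, hxb⟩ := hdense (x + dir ε) (by
      rw [mem_closedBall_zero_iff]
      linarith [norm_add_le x (dir ε), norm_dir hk ε])
    have hρ0 : 0 ≤ ρ := (norm_nonneg _).trans hxa
    have hdist : 1 - 2 * ρ ≤ ‖b - a‖ := by
      have h := norm_add₃_le (a := x + dir ε - b) (b := b - a) (c := a - x)
      rw [show x + dir ε - b + (b - a) + (a - x) = dir ε by abel, norm_dir hk] at h
      rw [norm_sub_rev a x] at h
      linarith
    have herr : ∀ i, |(f b i - f a i) - (F i (x + dir ε) - F i x)| ≤ 2 * D * ρ := by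
      intro i
      have e1 : f b i = F i b := hFe i hb
      have e2 : f a i = F i a := hFe i ha
      have h1 := (hF i).dist_le_mul b (x + dir ε)
      have h2 := (hF i).dist_le_mul a x
      rw [Real.dist_eq, dist_eq_norm, norm_sub_rev b] at h1
      rw [Real.dist_eq, dist_eq_norm, norm_sub_rev a] at h2
      have h3 : (Dn : ℝ) = D := rfl
      rw [h3] at h1 h2
      have h4 : D * ‖x + dir ε - b‖ ≤ D * ρ := mul_le_mul_of_nonneg_left hxb hD
      have h5 : D * ‖x - a‖ ≤ D * ρ := mul_le_mul_of_nonneg_left hxa hD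
      rw [e1, e2, show F i b - F i a - (F i (x + dir ε) - F i x) =
        (F i b - F i (x + dir ε)) - (F i a - F i x) by ring]
      exact (abs_sub _ _).trans (by linarith)
    have hmink := Real.Lp_add_le (univ : Finset (Fin d)) (fun i => F i (x + dir ε) - F i x)
      (fun i => (f b i - f a i) - (F i (x + dir ε) - F i x)) hp
    simp only [add_sub_cancel] at hmink
    have h1 := hlow b hb a ha
    have h2 := sum_rpow_le_card hp (by positivity : 0 ≤ 2 * D * ρ) herr
    have h3 : 1 / 2 ≤ (∑ i, |F i (x + dir ε) - F i x| ^ p) ^ (1 / p) := by nlinarith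
    calc (1 / 2 : ℝ) ^ p ≤ ((∑ i, |F i (x + dir ε) - F i x| ^ p) ^ (1 / p)) ^ p := by gcongr
      _ = _ := by
          rw [← Real.rpow_mul (sum_nonneg fun i _ => by positivity),
            one_div_mul_cancel hp0.ne', Real.rpow_one]
  have hint : ∀ i, IntegrableOn (fun x => ∑ ε : Fin k → Bool, |F i (x + dir ε) - F i x| ^ p)
      (closedBall (0 : Euc k) k) := fun i =>
    integrable_finsetSum _ fun ε _ =>
      ((Continuous.rpow_const (by have := (hF i).continuous; fun_prop)
        (fun _ => Or.inr hp0.le)).continuousOn.integrableOn_compact (isCompact_closedBall _ _))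
  have hmain : volume.real (closedBall (0 : Euc k) k) * (2 ^ k * (1 / 2 : ℝ) ^ p) ≤
      d * (volume.real (closedBall (0 : Euc k) (k + 1)) *
        (2 ^ k * momC p * (D / Real.sqrt k) ^ p)) := by
    calc volume.real (closedBall (0 : Euc k) k) * (2 ^ k * (1 / 2 : ℝ) ^ p)
        = ∫ _ in closedBall (0 : Euc k) k, 2 ^ k * (1 / 2 : ℝ) ^ p := by
          rw [setIntegral_const, smul_eq_mul]
      _ ≤ ∫ x in closedBall (0 : Euc k) k, ∑ i, ∑ ε : Fin k → Bool,
            |F i (x + dir ε) - F i x| ^ p := by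
          refine setIntegral_mono_on
            (continuous_const.continuousOn.integrableOn_compact (isCompact_closedBall _ _))
            (integrable_finsetSum _ fun i _ => hint i) measurableSet_closedBall fun x hx => ?_
          rw [sum_comm]
          simpa using sum_le_sum (s := univ) fun ε _ => hlower x hx ε
      _ ≤ ∑ _i : Fin d, volume.real (closedBall (0 : Euc k) (k + 1)) *
            (2 ^ k * momC p * (D / Real.sqrt k) ^ p) := by
          rw [integral_finsetSum _ fun i _ => hint i]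
          exact sum_le_sum fun i _ => sum_segments_le hk hp (hF i) _
      _ = _ := by simp
  have hvol : ∀ r : ℝ, 0 ≤ r → volume.real (closedBall (0 : Euc k) r) =
      r ^ k * volume.real (closedBall (0 : Euc k) 1) := fun r hr => by
    rw [measureReal_def, Measure.addHaar_closedBall' _ _ hr, finrank_euclideanSpace_fin,
      ENNReal.toReal_mul, ENNReal.toReal_ofReal (by positivity), measureReal_def]
  have hk0 : (0 : ℝ) < k := by exact_mod_cast hk
  have hu : 0 < volume.real (closedBall (0 : Euc k) 1) :=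
    ENNReal.toReal_pos (measure_closedBall_pos volume _ one_pos).ne' measure_closedBall_lt_top.ne
  rw [hvol ((k : ℝ) + 1) (by positivity), hvol k hk0.le] at hmain
  have hm := momC_pos hp
  have hgrow : ((k : ℝ) + 1) ^ k ≤ (k : ℝ) ^ k * Real.exp 1 := by
    calc ((k : ℝ) + 1) ^ k = (k : ℝ) ^ k * ((1 : ℝ) / k + 1) ^ k := by
          rw [← mul_pow]; congr 1; field_simp; ring
      _ ≤ (k : ℝ) ^ k * Real.exp ((1 : ℝ) / k) ^ k := by gcongr; exact Real.add_one_le_exp _
      _ = _ := by rw [← Real.exp_nat_mul]; field_simp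
  set u := volume.real (closedBall (0 : Euc k) 1) with hudef
  have h1 : (1 / 2 : ℝ) ^ p ≤ d * Real.exp 1 * momC p * (D / Real.sqrt k) ^ p := by
    refine le_of_mul_le_mul_left ?_ (show 0 < (k : ℝ) ^ k * u * 2 ^ k by positivity)
    calc (k : ℝ) ^ k * u * 2 ^ k * (1 / 2 : ℝ) ^ p
        ≤ d * (((k : ℝ) + 1) ^ k * u * (2 ^ k * momC p * (D / Real.sqrt k) ^ p)) := by
          refine le_trans (le_of_eq ?_) hmain
          ring
      _ ≤ d * (((k : ℝ) ^ k * Real.exp 1) * u * (2 ^ k * momC p * (D / Real.sqrt k) ^ p)) := by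
          gcongr
      _ = _ := by ring
  have hs : 0 < Real.sqrt (k : ℝ) ^ p := by positivity
  rw [Real.div_rpow zero_le_one (by norm_num : (0 : ℝ) ≤ 2), Real.one_rpow,
    Real.div_rpow hD (Real.sqrt_nonneg _), mul_div_assoc',
    div_le_div_iff₀ (by positivity) hs] at h1
  linarith

end Vale.Agent.P249.Lower
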