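import Mathlib
import Vale.Agent.P249.LowerCore

/-!
The hard point sets inside finite-dimensional `ℓ_p`, and the count of their points.
-/

namespace Vale.Agent.P249.Lower

open Finset

/-- The sign embedding of Euclidean space into functions of `2^k` indices. -/
noncomputable def signMap (k : ℕ) (x : Euc k) :
    Fin (Fintype.card (Fin k → Bool)) → ℝ :=
  fun j => ∑ i, x i * sg ((Fintype.equivFin (Fin k → Bool)).symm j i)

lemma signMap_bounds {k : ℕ} {p : ℝ} (hp : 2 ≤ p) (x y : Euc k) :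
    ((2 : ℝ) ^ k) ^ (1 / p) * ‖x - y‖ ≤
        (∑ j, |signMap k x j - signMap k y j| ^ p) ^ (1 / p) ∧
      (∑ j, |signMap k x j - signMap k y j| ^ p) ^ (1 / p) ≤
        ((2 : ℝ) ^ k) ^ (1 / p) * momC p * ‖x - y‖ := by
  have hp0 : 0 < p := by linarith
  have hn : ‖x - y‖ = Real.sqrt (∑ i, (x i - y i) ^ 2) := by
    simp [EuclideanSpace.norm_eq, Real.norm_eq_abs]
  have hsum : ∑ j, |signMap k x j - signMap k y j| ^ p =
      ∑ ε : Fin k → Bool, |∑ i, (x i - y i) * sg (ε i)| ^ p := by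
    rw [← (Fintype.equivFin (Fin k → Bool)).sum_comp]
    simp [signMap, ← sum_sub_distrib, sub_mul]
  rw [hsum, hn]
  set a : Fin k → ℝ := fun i => x i - y i
  have h0 : 0 ≤ ∑ ε : Fin k → Bool, |∑ i, a i * sg (ε i)| ^ p :=
    sum_nonneg fun _ _ => by positivity
  have e : ∀ c : ℝ, 0 ≤ c → (c * Real.sqrt (∑ i, a i ^ 2) ^ p) ^ (1 / p) =
      c ^ (1 / p) * Real.sqrt (∑ i, a i ^ 2) := fun c hc => by
    rw [Real.mul_rpow hc (by positivity), ← Real.rpow_mul (Real.sqrt_nonneg _),
      mul_one_div_cancel hp0.ne', Real.rpow_one]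
  have hm := momC_one_le (show 1 ≤ p by linarith)
  constructor
  · rw [← e _ (by positivity)]
    gcongr
    exact le_moment hp a
  · refine (Real.rpow_le_rpow h0 (moment_le (by linarith) a) (by positivity)).trans ?_
    rw [e _ (by positivity), Real.mul_rpow (by positivity) (by linarith)]
    refine mul_le_mul_of_nonneg_right (mul_le_mul_of_nonneg_left ?_ (by positivity))
      (Real.sqrt_nonneg _)
    exact (Real.rpow_le_rpow_of_exponent_le hm (by rw [div_le_one hp0]; linarith)).trans_eq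
      (Real.rpow_one _)

lemma signMap_injective {k : ℕ} : Function.Injective (signMap k) := fun x y hxy => by
  have h := (signMap_bounds (le_refl (2 : ℝ)) x y).1
  simp [hxy, Real.zero_rpow] at h
  have : (0 : ℝ) < ((2 : ℝ) ^ k) ^ ((2 : ℝ)⁻¹) := by positivity
  exact sub_eq_zero.1 (norm_eq_zero.1 (le_antisymm (by nlinarith [norm_nonneg (x - y)]) (norm_nonneg _)))

/-- The resolution of the grid. -/
def res (Q q k : ℕ) : ℕ := Q * (k + 1) ^ (q + 1)

/-- The number of grid points. -/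
def cnt (Q q k : ℕ) : ℕ := (2 * ((k + 2) * res Q q k) + 1) ^ k

lemma two_pow_le_cnt (Q q k : ℕ) (hQ : 1 ≤ Q) : 2 ^ k ≤ cnt Q q k := by
  refine Nat.pow_le_pow_left ?_ k
  have : 1 ≤ (k + 2) * res Q q k := Nat.one_le_iff_ne_zero.2 (by unfold res; positivity)
  omega

lemma exists_grid {k : ℕ} (M : ℕ) (hM : 1 ≤ M) :
    ∃ G : Finset (Euc k), G.card ≤ (2 * ((k + 2) * M) + 1) ^ k ∧
      ∀ z : Euc k, ‖z‖ ≤ k + 1 → ∃ x ∈ G, ‖z - x‖ ≤ (k : ℝ) / M := by
  classical
  set L : ℕ := (k + 2) * M with hL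
  refine ⟨(Fintype.piFinset fun _ : Fin k => Finset.Icc (-(L : ℤ)) L).image
    fun j => WithLp.toLp 2 fun i => (j i : ℝ) / M, ?_, fun z hz => ?_⟩
  · refine card_image_le.trans (le_of_eq ?_)
    simp [Fintype.card_piFinset, Int.card_Icc]
    congr 1
    omega
  · have hM0 : (0 : ℝ) < M := by exact_mod_cast hM
    set j : Fin k → ℤ := fun i => ⌊z i * M⌋ with hj
    have hzi : ∀ i, |z i| ≤ k + 1 := fun i =>
      le_trans (by simpa [Real.norm_eq_abs] using PiLp.norm_apply_le z i) hz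
    refine ⟨_, mem_image.2 ⟨j, Fintype.mem_piFinset.2 fun i => ?_, rfl⟩, ?_⟩
    · rw [Finset.mem_Icc]
      have := abs_le.1 (hzi i)
      constructor
      · rw [hj, Int.le_floor]
        push_cast [hL]
        nlinarith
      · have h : (j i : ℝ) ≤ (L : ℤ) := by
          refine (Int.floor_le _).trans ?_
          push_cast [hL]
          nlinarith
        exact_mod_cast h
    · have hc : ∀ i, ‖(z - WithLp.toLp 2 (fun i => (j i : ℝ) / M) : Euc k) i‖ ≤ 1 / M := fun i => by
        simp only [PiLp.sub_apply, Real.norm_eq_abs, hj]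
        rw [show z i - (⌊z i * M⌋ : ℝ) / M = (z i * M - ⌊z i * M⌋) / M by field_simp,
          abs_div, abs_of_pos hM0]
        gcongr
        rw [abs_le]
        exact ⟨by linarith [Int.floor_le (z i * M)], by linarith [Int.lt_floor_add_one (z i * M)]⟩
      set w : Euc k := z - WithLp.toLp 2 (fun i => (j i : ℝ) / M) with hw
      rw [EuclideanSpace.norm_eq, Real.sqrt_le_left (by positivity)]
      calc ∑ i, ‖w i‖ ^ 2 ≤ ∑ _i : Fin k, ((1 : ℝ) / M) ^ 2 :=
            sum_le_sum fun i _ => by gcongr; exact hc i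
        _ ≤ _ := by
            simp only [sum_const, card_univ, Fintype.card_fin, nsmul_eq_mul, div_pow, one_pow]
            rw [mul_one_div, div_le_div_iff_of_pos_right (by positivity)]
            exact_mod_cast Nat.le_self_pow two_ne_zero k

/-- A point set in finite `ℓ_p` with at most `cnt` points that needs dimension of order `k^(p/2)`. -/
lemma exists_hard_set {k : ℕ} (hk : 1 ≤ k) {p : ℝ} (hp : 2 ≤ p) {D : ℝ} (hD : 1 ≤ D)
    {Q q : ℕ} (hQ : 4 * (D * momC p) + 4 ≤ Q) (hq : p ≤ q) :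
    ∃ X : Finset (Fin (Fintype.card (Fin k → Bool)) → ℝ), X.card ≤ cnt Q q k ∧
      ∀ (d : ℕ) (f : (Fin (Fintype.card (Fin k → Bool)) → ℝ) → Fin d → ℝ) (s : ℝ), 0 < s →
        (∀ x ∈ X, ∀ y ∈ X, s * (∑ l, |x l - y l| ^ p) ^ (1 / p) ≤
              (∑ l, |f x l - f y l| ^ p) ^ (1 / p) ∧
            (∑ l, |f x l - f y l| ^ p) ^ (1 / p) ≤
              D * s * (∑ l, |x l - y l| ^ p) ^ (1 / p)) →
        Real.sqrt k ^ p ≤ 2 ^ p * Real.exp 1 * momC p * (D * momC p) ^ p * d := by
  classical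
  have hp0 : 0 < p := by linarith
  have hm := momC_one_le (show 1 ≤ p by linarith)
  have hQ1 : 1 ≤ Q := by
    have : (1 : ℝ) ≤ Q := by nlinarith
    exact_mod_cast this
  have hM : 1 ≤ res Q q k := Nat.one_le_iff_ne_zero.2 (by unfold res; positivity)
  obtain ⟨G, hcard, hdense⟩ := exists_grid (k := k) (res Q q k) hM
  refine ⟨G.image (signMap k), card_image_le.trans hcard, fun d f s hs hf => ?_⟩
  set C := 2 ^ p * Real.exp 1 * momC p * (D * momC p) ^ p with hC
  rcases le_or_gt ((k + 1) ^ q) d with hd | hd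
  · have hC1 : 1 ≤ C := by
      have h1 : (1 : ℝ) ≤ 2 ^ p := Real.one_le_rpow (by norm_num) hp0.le
      have h2 : (1 : ℝ) ≤ Real.exp 1 := Real.one_le_exp zero_le_one
      have h3 : (1 : ℝ) ≤ (D * momC p) ^ p :=
        Real.one_le_rpow (one_le_mul_of_one_le_of_one_le hD hm) hp0.le
      exact one_le_mul_of_one_le_of_one_le
        (one_le_mul_of_one_le_of_one_le (one_le_mul_of_one_le_of_one_le h1 h2) hm) h3
    have hk1 : (1 : ℝ) ≤ (k : ℝ) + 1 := by simp
    calc Real.sqrt k ^ p ≤ ((k : ℝ) + 1) ^ p := by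
          gcongr
          rw [Real.sqrt_le_left (by positivity)]
          nlinarith
      _ ≤ ((k : ℝ) + 1) ^ (q : ℝ) := Real.rpow_le_rpow_of_exponent_le hk1 hq
      _ ≤ d := by rw [Real.rpow_natCast]; exact_mod_cast hd
      _ ≤ C * d := le_mul_of_one_le_left (Nat.cast_nonneg _) hC1
  · set c := s * ((2 : ℝ) ^ k) ^ (1 / p) with hc
    have hc0 : 0 < c := by positivity
    have hscale : ∀ x y : Euc k,
        (∑ i, |f (signMap k x) i / c - f (signMap k y) i / c| ^ p) ^ (1 / p) =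
          (∑ i, |f (signMap k x) i - f (signMap k y) i| ^ p) ^ (1 / p) / c := fun x y => by
      simp only [← sub_div, abs_div, abs_of_pos hc0, Real.div_rpow (abs_nonneg _) hc0.le]
      rw [← sum_div, Real.div_rpow (sum_nonneg fun _ _ => by positivity) (by positivity),
        ← Real.rpow_mul hc0.le, mul_one_div_cancel hp0.ne', Real.rpow_one]
    refine net_bound hk (by linarith) (D := D * momC p) (by positivity) (ρ := (k : ℝ) / res Q q k)
      (↑G) (fun x i => f (signMap k x) i / c) (fun z hz => ?_) (fun x hx y hy => ?_)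
      (fun x hx y hy => ?_) ?_
    · exact hdense z (mem_closedBall_zero_iff.1 hz)
    · rw [hscale, le_div_iff₀ hc0]
      have h1 := (hf _ (mem_image_of_mem _ hx) _ (mem_image_of_mem _ hy)).1
      refine le_trans ?_ h1
      calc ‖x - y‖ * c = s * (((2 : ℝ) ^ k) ^ (1 / p) * ‖x - y‖) := by rw [hc]; ring
        _ ≤ _ := mul_le_mul_of_nonneg_left (signMap_bounds hp x y).1 hs.le
    · rw [hscale, div_le_iff₀ hc0]
      have h1 := (hf _ (mem_image_of_mem _ hx) _ (mem_image_of_mem _ hy)).2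
      refine h1.trans ((mul_le_mul_of_nonneg_left (signMap_bounds hp x y).2 (by positivity)).trans
        (le_of_eq ?_))
      rw [hc]; ring
    · have hd' : (d : ℝ) + 1 ≤ ((k : ℝ) + 1) ^ q := by exact_mod_cast hd
      have hDm : 0 ≤ D * momC p := by positivity
      have hM0 : (0 : ℝ) < res Q q k := by exact_mod_cast hM
      rw [show 4 * (d : ℝ) * (D * momC p) * ((k : ℝ) / res Q q k) + 4 * ((k : ℝ) / res Q q k) =
        (4 * (d : ℝ) * (D * momC p) + 4) * k / res Q q k by ring, div_le_one hM0]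
      calc (4 * (d : ℝ) * (D * momC p) + 4) * k
          ≤ ((4 * (D * momC p) + 4) * ((k : ℝ) + 1) ^ q) * ((k : ℝ) + 1) := by
            gcongr
            · nlinarith [mul_le_mul_of_nonneg_left hd' hDm, (Nat.cast_nonneg d : (0 : ℝ) ≤ d)]
            · simp
        _ ≤ ((Q : ℝ) * ((k : ℝ) + 1) ^ q) * ((k : ℝ) + 1) := by gcongr
        _ = _ := by simp [res, pow_succ]; ring

end Vale.Agent.P249.Lower
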