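import Mathlib

/-!
# Importance sampling of coordinates, derandomised

Finitely many functions `φ k ≥ 0`, each of integral `1`, dominated by `T ρ` where `∫ ρ ≤ K`:
some `O(T K log)` points reproduce all integrals up to `1 ± η` after reweighting.
-/

namespace Vale.Agent.P249

open Finset MeasureTheory

lemma exp_convex_bound (lam u : ℝ) (hu0 : 0 ≤ u) (hu1 : u ≤ 1) :
    Real.exp (lam * u) ≤ 1 + u * (Real.exp lam - 1) := by
  have h := convexOn_exp.2 (Set.mem_univ (0 : ℝ)) (Set.mem_univ lam)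
    (by linarith : (0 : ℝ) ≤ 1 - u) hu0 (by ring)
  simp only [smul_eq_mul, mul_zero, zero_add, Real.exp_zero, mul_one] at h
  rw [mul_comm lam u]
  linarith

variable {Ω : Type*} [MeasurableSpace Ω]

/-- A weighted sum whose `ρ`-average is at most `q A` is at most `q A` at some point with
`ρ ≠ 0`. -/
lemma exists_good_point (μ : Measure Ω) (ρ H : Ω → ℝ) (hρ0 : ∀ ω, 0 ≤ ρ ω)
    (hρi : Integrable ρ μ) (hρpos : 0 < ∫ ω, ρ ω ∂μ) (Bnd : ℝ)
    (hHi : Integrable (fun ω => ρ ω * H ω) μ)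
    (h : ∫ ω, ρ ω * H ω ∂μ ≤ Bnd * ∫ ω, ρ ω ∂μ) :
    ∃ ω, 0 < ρ ω ∧ H ω ≤ Bnd := by
  by_contra hne
  push Not at hne
  have hnn : ∀ ω, 0 ≤ ρ ω * H ω - Bnd * ρ ω := by
    intro ω
    rcases (hρ0 ω).lt_or_eq with h' | h'
    · have := hne ω h'
      nlinarith
    · simp [← h']
  have hi : Integrable (fun ω => ρ ω * H ω - Bnd * ρ ω) μ := hHi.sub (hρi.const_mul _)
  have hint : ∫ ω, ρ ω * H ω - Bnd * ρ ω ∂μ = 0 := by
    apply le_antisymm ?_ (integral_nonneg hnn)
    rw [integral_sub hHi (hρi.const_mul _), integral_const_mul]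
    linarith
  have hz := (integral_eq_zero_iff_of_nonneg hnn hi).mp hint
  have hρz : ρ =ᵐ[μ] 0 := by
    filter_upwards [hz] with ω hω
    rcases (hρ0 ω).lt_or_eq with h' | h'
    · exfalso
      have := hne ω h'
      simp only [Pi.zero_apply] at hω
      nlinarith [mul_lt_mul_of_pos_left this h']
    · exact h'.symm
  rw [integral_congr_ae hρz] at hρpos
  simp at hρpos

theorem exists_sample {κ : Type*} [Fintype κ] (μ : Measure Ω) (ρ : Ω → ℝ) (φ : κ → Ω → ℝ)
    (T K η : ℝ) (hT : 0 < T) (hη0 : 0 < η) (hη1 : η ≤ 1)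
    (hρm : Measurable ρ) (hρ0 : ∀ ω, 0 ≤ ρ ω) (hρi : Integrable ρ μ)
    (hρK : ∫ ω, ρ ω ∂μ ≤ K) (hρpos : 0 < ∫ ω, ρ ω ∂μ)
    (hφm : ∀ k, Measurable (φ k)) (hφ0 : ∀ k ω, 0 ≤ φ k ω)
    (hφρ : ∀ k ω, φ k ω ≤ T * ρ ω) (hφ1 : ∀ k, ∫ ω, φ k ω ∂μ = 1)
    (m : ℕ) (hm : 2 * Fintype.card κ < Real.exp (η ^ 2 / (4 * (T * K)) * m)) :
    ∃ (ω : Fin m → Ω) (w : Fin m → ℝ), (∀ l, 0 ≤ w l) ∧
      ∀ k, 1 - η ≤ ∑ l, w l * φ k (ω l) ∧ ∑ l, w l * φ k (ω l) ≤ 1 + η := by
  classical
  rcases isEmpty_or_nonempty κ with hκ | hκ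
  · obtain ⟨ω₀, -, -⟩ := exists_good_point μ ρ (fun _ => 0) hρ0 hρi hρpos 0
      (by simp) (by simp)
    exact ⟨fun _ => ω₀, fun _ => 0, fun _ => le_rfl, fun k => isEmptyElim k⟩
  set R := ∫ ω, ρ ω ∂μ with hR
  have hK : 0 < K := hρpos.trans_le hρK
  set M := T * K with hMdef
  have hM : 0 < M := mul_pos hT hK
  -- normalised variable, in `[0, R / K] ⊆ [0, 1]` and of `ρ`-average `1 / M`
  set u : κ → Ω → ℝ := fun k ω => R / M * (φ k ω / ρ ω) with hu
  have hu0 : ∀ k ω, 0 ≤ u k ω := fun k ω =>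
    mul_nonneg (div_nonneg hρpos.le hM.le) (div_nonneg (hφ0 k ω) (hρ0 ω))
  have hu1 : ∀ k ω, u k ω ≤ 1 := by
    intro k ω
    rcases (hρ0 ω).lt_or_eq with h | h
    · have h1 : φ k ω / ρ ω ≤ T := (div_le_iff₀ h).mpr (hφρ k ω)
      calc R / M * (φ k ω / ρ ω) ≤ R / M * T :=
            mul_le_mul_of_nonneg_left h1 (div_nonneg hρpos.le hM.le)
        _ = R / K := by rw [hMdef]; field_simp
        _ ≤ 1 := (div_le_one hK).mpr hρK
    · simp [hu, ← h]
  have hρu : ∀ k ω, ρ ω * u k ω = R / M * φ k ω := by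
    intro k ω
    rcases (hρ0 ω).lt_or_eq with h | h
    · simp only [hu]; field_simp
    · have h0 : φ k ω = 0 := le_antisymm (by have := hφρ k ω; simpa [← h] using this) (hφ0 k ω)
      simp [hu, ← h, h0]
  -- the two signed exponential tests
  let lam : Bool → ℝ := fun s => if s then η / 2 else -(η / 2)
  let cen : Bool → ℝ := fun s => if s then (1 + η) / M else (1 - η) / M
  let hfun : κ × Bool → Ω → ℝ := fun ks ω => Real.exp (lam ks.2 * (u ks.1 ω - cen ks.2))
  set q := Real.exp (-(η ^ 2 / (4 * M))) with hq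
  have hfpos : ∀ ks ω, 0 < hfun ks ω := fun ks ω => Real.exp_pos _
  have hum : ∀ k, Measurable (u k) := fun k => ((hφm k).div hρm).const_mul _
  have hfi : ∀ ks, Integrable (fun ω => ρ ω * hfun ks ω) μ := by
    intro ks
    apply Integrable.mul_bdd (c := Real.exp (|lam ks.2| * (1 + |cen ks.2|))) hρi
    · exact ((((hum ks.1).sub_const _).const_mul _).exp).aestronglyMeasurable
    · refine ae_of_all _ fun ω => ?_
      rw [Real.norm_eq_abs, abs_of_pos (hfpos ks ω)]
      apply Real.exp_le_exp.mpr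
      refine (le_abs_self _).trans ?_
      rw [abs_mul]
      refine mul_le_mul_of_nonneg_left ((abs_sub _ _).trans ?_) (abs_nonneg _)
      rw [abs_of_nonneg (hu0 _ _)]
      linarith [hu1 ks.1 ω]
  have hfint : ∀ ks, ∫ ω, ρ ω * hfun ks ω ∂μ ≤ q * R := by
    intro ks
    obtain ⟨k, s⟩ := ks
    have hφi : Integrable (φ k) μ := by
      by_contra hni
      have h := integral_undef hni
      rw [hφ1 k] at h
      exact one_ne_zero h
    have hle : ∀ ω, ρ ω * hfun (k, s) ω ≤
        Real.exp (-(lam s * cen s)) * (ρ ω + (Real.exp (lam s) - 1) * (R / M) * φ k ω) := by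
      intro ω
      have h1 := mul_le_mul_of_nonneg_left (exp_convex_bound (lam s) _ (hu0 k ω) (hu1 k ω))
        (hρ0 ω)
      have h2 : hfun (k, s) ω = Real.exp (-(lam s * cen s)) * Real.exp (lam s * u k ω) := by
        simp only [hfun]; rw [← Real.exp_add]; ring_nf
      rw [h2]
      calc ρ ω * (Real.exp (-(lam s * cen s)) * Real.exp (lam s * u k ω))
          = Real.exp (-(lam s * cen s)) * (ρ ω * Real.exp (lam s * u k ω)) := by ring
        _ ≤ Real.exp (-(lam s * cen s)) * (ρ ω * (1 + u k ω * (Real.exp (lam s) - 1))) :=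
            mul_le_mul_of_nonneg_left h1 (Real.exp_pos _).le
        _ = _ := by
            rw [mul_add (ρ ω), ← mul_assoc (ρ ω), hρu k ω]; ring
    refine (integral_mono (hfi (k, s))
      ((hρi.add (hφi.const_mul _)).const_mul _) hle).trans ?_
    simp only [Pi.add_apply]
    rw [integral_const_mul, integral_add hρi (hφi.const_mul _), integral_const_mul, hφ1 k]
    have hlam : |lam s| ≤ 1 := by
      cases s <;> simp only [lam, if_true, Bool.false_eq_true, if_false, abs_neg] <;>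
        rw [abs_of_nonneg (by linarith)] <;> linarith
    have h3 : Real.exp (lam s) - 1 ≤ lam s + lam s ^ 2 := by
      have := (abs_le.mp (Real.abs_exp_sub_one_sub_id_le hlam)).2
      linarith
    have h4 : R + (Real.exp (lam s) - 1) * (R / M) * 1 ≤
        R * Real.exp ((lam s + lam s ^ 2) / M) := by
      have h5 : (Real.exp (lam s) - 1) * (R / M) * 1 ≤ R * ((lam s + lam s ^ 2) / M) := by
        have := mul_le_mul_of_nonneg_right h3 (div_nonneg hρpos.le hM.le)
        calc _ ≤ (lam s + lam s ^ 2) * (R / M) := by linarith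
          _ = _ := by ring
      have h6 := mul_le_mul_of_nonneg_left (Real.add_one_le_exp ((lam s + lam s ^ 2) / M))
        hρpos.le
      linarith
    refine (mul_le_mul_of_nonneg_left h4 (Real.exp_pos _).le).trans (le_of_eq ?_)
    rw [mul_comm R, ← mul_assoc, ← Real.exp_add, hq]
    congr 2
    cases s <;> simp only [lam, cen, if_true, Bool.false_eq_true, if_false] <;> field_simp <;> ring
  -- conditional expectations
  have hgreedy : ∀ j : ℕ, ∃ ω : Fin j → Ω, (∀ l, 0 < ρ (ω l)) ∧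
      ∑ ks : κ × Bool, ∏ l, hfun ks (ω l) ≤ (Fintype.card (κ × Bool) : ℝ) * q ^ j := by
    intro j
    induction j with
    | zero => exact ⟨Fin.elim0, fun l => l.elim0, by simp⟩
    | succ j ih =>
      obtain ⟨ω, hω, hsum⟩ := ih
      set a : κ × Bool → ℝ := fun ks => ∏ l, hfun ks (ω l) with ha
      have ha0 : ∀ ks, 0 ≤ a ks := fun ks => prod_nonneg fun l _ => (hfpos _ _).le
      have e : (fun x => ρ x * ∑ ks, a ks * hfun ks x) =
          fun x => ∑ ks, a ks * (ρ x * hfun ks x) := by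
        funext x
        rw [mul_sum]
        exact sum_congr rfl fun ks _ => by ring
      have hi : Integrable (fun x => ρ x * ∑ ks, a ks * hfun ks x) μ := by
        rw [e]
        exact integrable_finsetSum _ fun ks _ => (hfi ks).const_mul _
      have hle : ∫ x, ρ x * ∑ ks, a ks * hfun ks x ∂μ ≤ (q * ∑ ks, a ks) * R := by
        rw [e, integral_finsetSum _ fun ks _ => (hfi ks).const_mul _]
        calc ∑ ks, ∫ x, a ks * (ρ x * hfun ks x) ∂μ
            = ∑ ks, a ks * ∫ x, ρ x * hfun ks x ∂μ :=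
              sum_congr rfl fun ks _ => integral_const_mul _ _
          _ ≤ ∑ ks, a ks * (q * R) :=
              sum_le_sum fun ks _ => mul_le_mul_of_nonneg_left (hfint ks) (ha0 ks)
          _ = _ := by rw [← sum_mul]; ring
      obtain ⟨x, hx, hxle⟩ := exists_good_point μ ρ _ hρ0 hρi hρpos (q * ∑ ks, a ks) hi hle
      refine ⟨Fin.snoc ω x, fun l => ?_, ?_⟩
      · induction l using Fin.lastCases with
        | last => simpa using hx
        | cast l => simpa using hω l
      · calc ∑ ks, ∏ l : Fin (j + 1), hfun ks (Fin.snoc (α := fun _ => Ω) ω x l)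
            = ∑ ks, a ks * hfun ks x :=
              sum_congr rfl fun ks _ => by simp [Fin.prod_univ_castSucc, ha]
          _ ≤ q * ∑ ks, a ks := hxle
          _ ≤ q * ((Fintype.card (κ × Bool) : ℝ) * q ^ j) :=
              mul_le_mul_of_nonneg_left hsum (Real.exp_pos _).le
          _ = _ := by rw [pow_succ]; ring
  obtain ⟨ω, hω, hsum⟩ := hgreedy m
  have hlt : ∀ ks : κ × Bool, ∑ l, lam ks.2 * (u ks.1 (ω l) - cen ks.2) < 0 := by
    intro ks
    have h1 : ∏ l, hfun ks (ω l) ≤ (Fintype.card (κ × Bool) : ℝ) * q ^ m :=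
      (single_le_sum (f := fun ks => ∏ l, hfun ks (ω l))
        (fun i _ => prod_nonneg fun l _ => (hfpos _ _).le) (mem_univ ks)).trans hsum
    have h2 : (Fintype.card (κ × Bool) : ℝ) * q ^ m < 1 := by
      rw [hq, ← Real.exp_nat_mul, Fintype.card_prod, Fintype.card_bool]
      push_cast
      have : Real.exp ((m : ℝ) * -(η ^ 2 / (4 * M))) = (Real.exp (η ^ 2 / (4 * M) * m))⁻¹ := by
        rw [← Real.exp_neg]; ring_nf
      rw [this, ← div_eq_mul_inv, div_lt_one (Real.exp_pos _)]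
      linarith
    have h3 := h1.trans_lt h2
    rw [← Real.exp_sum, Real.exp_lt_one_iff] at h3
    exact h3
  rcases Nat.eq_zero_or_pos m with hm0 | hm0
  · exfalso
    subst hm0
    have h1 := hm
    have h2 : (1 : ℝ) ≤ Fintype.card κ := by exact_mod_cast Fintype.card_pos (α := κ)
    simp at h1
    linarith
  refine ⟨ω, fun l => R / (m * ρ (ω l)), fun l =>
    div_nonneg hρpos.le (mul_nonneg (by positivity) (hρ0 _)), fun k => ?_⟩
  have hmM : (0 : ℝ) < M / m := by positivity
  have key : ∑ l, R / (m * ρ (ω l)) * φ k (ω l) = M / m * ∑ l, u k (ω l) := by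
    rw [mul_sum]
    refine sum_congr rfl fun l _ => ?_
    have := (hω l).ne'
    simp only [hu]
    field_simp
  have hp := hlt (k, true)
  have hn := hlt (k, false)
  simp only [lam, cen, if_true, Bool.false_eq_true, if_false, ← mul_sum, sum_sub_distrib,
    sum_const, card_univ, Fintype.card_fin, nsmul_eq_mul] at hp hn
  rw [key]
  constructor
  · have h1 : (m : ℝ) * ((1 - η) / M) < ∑ l, u k (ω l) := by nlinarith
    calc 1 - η = M / m * (m * ((1 - η) / M)) := by field_simp
      _ ≤ _ := mul_le_mul_of_nonneg_left h1.le hmM.le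
  · have h1 : ∑ l, u k (ω l) < (m : ℝ) * ((1 + η) / M) := by nlinarith
    calc _ ≤ M / m * (m * ((1 + η) / M)) := mul_le_mul_of_nonneg_left h1.le hmM.le
      _ = 1 + η := by field_simp

end Vale.Agent.P249
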