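import Mathlib

/-!
# Sparse certificates for weighted Lipschitz bounds

For nonnegative weights on the pairs of a finite set there is a set of at most twice as many pairs
as points which controls every pair up to a logarithmic factor (a greedy spanner).
-/

namespace Vale.Agent.P249

open Finset

variable {ι : Type*}

/-- The absolute difference of `z` at the two ends of an unordered pair. -/
noncomputable def gap (z : ι → ℝ) : Sym2 ι → ℝ :=
  Sym2.lift ⟨fun a b => |z a - z b|, fun a b => abs_sub_comm (z a) (z b)⟩

@[simp] lemma gap_mk (z : ι → ℝ) (a b : ι) : gap z s(a, b) = |z a - z b| := rfl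

/-- The pairs in `E` control the pair `e` up to the factor `t`. -/
def Controls (t : ℝ) (δ : Sym2 ι → ℝ) (E : Finset (Sym2 ι)) (e : Sym2 ι) : Prop :=
  ∀ (z : ι → ℝ) (M : ℝ), 0 ≤ M → (∀ f ∈ E, gap z f ≤ M * δ f) → gap z e ≤ t * M * δ e

lemma Controls.mono {t : ℝ} {δ : Sym2 ι → ℝ} {E E' : Finset (Sym2 ι)} {e : Sym2 ι}
    (h : Controls t δ E e) (hE : E ⊆ E') : Controls t δ E' e :=
  fun z M hM hf => h z M hM fun f hfE => hf f (hE hfE)

lemma controls_of_mem {t : ℝ} (ht : 1 ≤ t) {δ : Sym2 ι → ℝ} (hδ : ∀ f, 0 ≤ δ f)
    {E : Finset (Sym2 ι)} {e : Sym2 ι} (he : e ∈ E) : Controls t δ E e := by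
  intro z M hM hf
  calc gap z e ≤ M * δ e := hf e he
    _ = 1 * M * δ e := by ring
    _ ≤ t * M * δ e :=
      mul_le_mul_of_nonneg_right (mul_le_mul_of_nonneg_right ht hM) (hδ e)

/-- The greedy construction: pairs are scanned by increasing weight, and a pair is kept only if
the pairs kept so far do not control it. -/
lemma exists_greedy [DecidableEq ι] (t : ℝ) (ht : 1 ≤ t) (δ : Sym2 ι → ℝ) (hδ : ∀ f, 0 ≤ δ f)
    (s : Finset (Sym2 ι)) :
    ∃ E ⊆ s, (∀ e ∈ s, Controls t δ E e) ∧
      ∀ F ⊆ E, F.Nonempty → ∃ e ∈ F, (∀ f ∈ F, δ f ≤ δ e) ∧ ¬ Controls t δ (F.erase e) e := by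
  classical
  induction s using Finset.induction_on_max_value δ with
  | empty =>
    exact ⟨∅, Subset.rfl, by simp, fun F hF hne => absurd (subset_empty.mp hF) hne.ne_empty⟩
  | insert a s ha hmax ih =>
    obtain ⟨E, hEs, hctl, hirr⟩ := ih
    by_cases hca : Controls t δ E a
    · refine ⟨E, hEs.trans (subset_insert _ _), ?_, hirr⟩
      intro e he
      rcases mem_insert.mp he with rfl | he
      · exact hca
      · exact hctl e he
    · refine ⟨insert a E, insert_subset_insert _ hEs, ?_, ?_⟩
      · intro e he
        rcases mem_insert.mp he with rfl | he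
        · exact controls_of_mem ht hδ (mem_insert_self _ _)
        · exact (hctl e he).mono (subset_insert _ _)
      · intro F hF hne
        by_cases haF : a ∈ F
        · refine ⟨a, haF, ?_, fun hc => hca (hc.mono ?_)⟩
          · intro f hf
            rcases mem_insert.mp (hF hf) with rfl | hf'
            · exact le_rfl
            · exact hmax f (hEs hf')
          · intro f hf
            rcases mem_insert.mp (hF (mem_of_mem_erase hf)) with rfl | hf'
            · exact absurd rfl (ne_of_mem_erase hf)
            · exact hf'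
        · refine hirr F (fun f hf => ?_) hne
          rcases mem_insert.mp (hF hf) with rfl | hf'
          · exact absurd hf haF
          · exact hf'

lemma gap_le_along_walk {G : SimpleGraph ι} (z : ι → ℝ) (B : ℝ) :
    ∀ {a b : ι} (w : G.Walk a b), (∀ e ∈ w.edges, gap z e ≤ B) → |z a - z b| ≤ w.length * B
  | _, _, .nil, _ => by simp
  | a, b, .cons (v := c) hadj w, h => by
    have h1 : |z a - z c| ≤ B := by simpa using h s(a, c) (by simp)
    have h2 := gap_le_along_walk z B w (fun e he => h e (by simp [he]))
    have h3 := abs_sub_le (z a) (z c) (z b)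
    simp only [SimpleGraph.Walk.length_cons]
    push_cast
    nlinarith

/-- The kept pairs have no cycle of at most `T + 1` edges. -/
lemma no_short_cycle [DecidableEq ι] (T : ℕ) (δ : Sym2 ι → ℝ) (hδ : ∀ f, 0 ≤ δ f)
    (E : Finset (Sym2 ι))
    (hirr : ∀ F ⊆ E, F.Nonempty →
      ∃ e ∈ F, (∀ f ∈ F, δ f ≤ δ e) ∧ ¬ Controls (T : ℝ) δ (F.erase e) e)
    {u : ι} (c : (SimpleGraph.fromEdgeSet (E : Set (Sym2 ι))).Walk u u) (hc : c.IsCycle) :
    T + 1 < c.length := by
  classical
  by_contra hlen
  push Not at hlen
  set F := c.edges.toFinset with hFdef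
  have hFE : F ⊆ E := by
    intro f hf
    have h := SimpleGraph.Walk.edges_subset_edgeSet c (List.mem_toFinset.mp hf)
    rw [SimpleGraph.edgeSet_fromEdgeSet] at h
    exact h.1
  have hne : F.Nonempty := by
    rcases List.exists_mem_of_ne_nil c.edges (by
      simpa [← SimpleGraph.Walk.length_edges, List.length_eq_zero_iff] using
        (by have := hc.three_le_length; omega : c.length ≠ 0)) with ⟨f, hf⟩
    exact ⟨f, List.mem_toFinset.mpr hf⟩
  obtain ⟨e, heF, hemax, hnc⟩ := hirr F hFE hne
  induction e using Sym2.ind with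
  | _ a b =>
  let H := SimpleGraph.fromEdgeSet (F : Set (Sym2 ι))
  have hsub : ∀ f ∈ c.edges, f ∈ H.edgeSet := by
    intro f hf
    have hd := SimpleGraph.Walk.edges_subset_edgeSet c hf
    rw [SimpleGraph.edgeSet_fromEdgeSet] at hd ⊢
    exact ⟨by simpa [hFdef] using hf, hd.2⟩
  have hr : H.Adj a b ∧ (H.deleteEdges {s(a, b)}).Reachable a b :=
    SimpleGraph.adj_and_reachable_delete_edges_iff_exists_cycle.mpr
      ⟨u, c.transfer H hsub, hc.transfer hsub, by
        rw [SimpleGraph.Walk.edges_transfer]; simpa [hFdef] using heF⟩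
  obtain ⟨w, hw⟩ := hr.2.exists_isPath
  have hwe : w.edges.toFinset ⊆ F.erase s(a, b) := by
    intro f hf
    have h := SimpleGraph.Walk.edges_subset_edgeSet w (List.mem_toFinset.mp hf)
    rw [SimpleGraph.edgeSet_deleteEdges, Set.mem_sdiff, SimpleGraph.edgeSet_fromEdgeSet] at h
    exact mem_erase.mpr ⟨by simpa using h.2, h.1.1⟩
  have hwlen : w.length ≤ T := by
    have h1 := card_le_card hwe
    rw [List.toFinset_card_of_nodup hw.isTrail.edges_nodup, SimpleGraph.Walk.length_edges,
      card_erase_of_mem heF] at h1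
    have h2 : F.card ≤ c.length := by
      simpa [hFdef] using List.toFinset_card_le c.edges
    omega
  apply hnc
  intro z M hM hz
  have hw' := gap_le_along_walk z (M * δ s(a, b)) w (fun f hf => by
    have hf' := hwe (List.mem_toFinset.mpr hf)
    exact le_trans (hz f hf') (mul_le_mul_of_nonneg_left (hemax f (mem_of_mem_erase hf')) hM))
  rw [gap_mk, mul_assoc]
  exact hw'.trans (mul_le_mul_of_nonneg_right (by exact_mod_cast hwlen)
    (mul_nonneg hM (hδ _)))

/-- In a graph without short cycles a vertex has at most one neighbour no farther from the root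
than a given radius, unless it is nearer than both. -/
lemma near_nbr_unique {G : SimpleGraph ι} {r : ℕ}
    (hg : ∀ (u : ι) (c : G.Walk u u), c.IsCycle → 2 * r < c.length)
    {v u a b : ι} (hau : G.Adj a u) (hbu : G.Adj b u)
    (hra : G.Reachable v a) (hrb : G.Reachable v b)
    (ha : G.dist v a ≤ G.dist v u) (hb : G.dist v b ≤ G.dist v u)
    (ha' : G.dist v a + 1 ≤ r) (hb' : G.dist v b + 1 ≤ r) : a = b := by
  classical
  obtain ⟨pa, hpa, hla⟩ := hra.exists_path_of_dist
  obtain ⟨pb, hpb, hlb⟩ := hrb.exists_path_of_dist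
  have notmem : ∀ {x : ι} (q : G.Walk v x), q.length = G.dist v x → x ≠ u →
      G.dist v x ≤ G.dist v u → u ∉ q.support := by
    intro x q hq hxu hx hu
    have h1 := G.dist_le (q.takeUntil u hu)
    have h2 := q.length_takeUntil_lt_length hu (Ne.symm hxu)
    omega
  have hna := notmem pa hla hau.ne ha
  have hnb := notmem pb hlb hbu.ne hb
  set P := pa.concat hau with hP
  set Q := pb.concat hbu with hQ
  have hPp : P.IsPath := hpa.concat hna hau
  have hQp : Q.IsPath := hpb.concat hnb hbu
  set F : Set (Sym2 ι) := {e | e ∈ P.edges ∨ e ∈ Q.edges} with hF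
  let H := SimpleGraph.fromEdgeSet F
  have hP' : ∀ e ∈ P.edges, e ∈ H.edgeSet := fun e he => by
    rw [SimpleGraph.edgeSet_fromEdgeSet]
    exact ⟨Or.inl he, G.not_isDiag_of_mem_edgeSet (P.edges_subset_edgeSet he)⟩
  have hQ' : ∀ e ∈ Q.edges, e ∈ H.edgeSet := fun e he => by
    rw [SimpleGraph.edgeSet_fromEdgeSet]
    exact ⟨Or.inr he, G.not_isDiag_of_mem_edgeSet (Q.edges_subset_edgeSet he)⟩
  have hac : H.IsAcyclic := by
    intro x c hc
    have hsub : ∀ e ∈ c.edges, e ∈ G.edgeSet := fun e he => by
      have h := c.edges_subset_edgeSet he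
      rw [SimpleGraph.edgeSet_fromEdgeSet] at h
      rcases h.1 with h' | h'
      · exact P.edges_subset_edgeSet h'
      · exact Q.edges_subset_edgeSet h'
    have h1 := hg x (c.transfer G hsub) (hc.transfer hsub)
    rw [SimpleGraph.Walk.length_transfer] at h1
    have h2 : c.edges.toFinset ⊆ (P.edges ++ Q.edges).toFinset := by
      intro e he
      have h := c.edges_subset_edgeSet (List.mem_toFinset.mp he)
      rw [SimpleGraph.edgeSet_fromEdgeSet] at h
      simp only [List.mem_toFinset, List.mem_append]
      exact h.1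
    have h3 := (card_le_card h2).trans (List.toFinset_card_le _)
    rw [List.toFinset_card_of_nodup hc.isCircuit.isTrail.edges_nodup,
      SimpleGraph.Walk.length_edges, List.length_append, SimpleGraph.Walk.length_edges,
      SimpleGraph.Walk.length_edges, hP, hQ, SimpleGraph.Walk.length_concat,
      SimpleGraph.Walk.length_concat, hla, hlb] at h3
    omega
  have heq := (hac.subsingleton_path v u).elim ⟨P.transfer H hP', hPp.transfer hP'⟩
    ⟨Q.transfer H hQ', hQp.transfer hQ'⟩
  have hs := congrArg (fun q : H.Path v u => (q : H.Walk v u).support) heq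
  simp only [SimpleGraph.Walk.support_transfer, hP, hQ, SimpleGraph.Walk.support_concat] at hs
  have hs' : pa.support = pb.support := by simpa using hs
  have := congrArg List.getLast? hs'
  rw [List.getLast?_eq_getLast_of_ne_nil pa.support_ne_nil,
    List.getLast?_eq_getLast_of_ne_nil pb.support_ne_nil] at this
  simpa using this

/-- A graph on fewer than `2 ^ r` vertices without cycles of length at most `2 r` has a vertex of
degree at most two in every nonempty vertex set. -/
lemma exists_low_degree [Fintype ι] {r : ℕ} (hn : Fintype.card ι < 2 ^ r)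
    (G : SimpleGraph ι) [DecidableRel G.Adj] (S : Finset ι) (hS : S.Nonempty)
    (hg : ∀ (u : ι) (c : G.Walk u u), c.IsCycle → 2 * r < c.length) :
    ∃ v ∈ S, (S.filter (G.Adj v)).card ≤ 2 := by
  classical
  by_contra hdeg
  push Not at hdeg
  obtain ⟨v, hv⟩ := hS
  let H : SimpleGraph ι :=
    { Adj := fun a b => G.Adj a b ∧ a ∈ S ∧ b ∈ S
      symm := ⟨fun a b h => ⟨h.1.symm, h.2.2, h.2.1⟩⟩
      loopless := ⟨fun a h => h.1.ne rfl⟩ }
  have hHG : H ≤ G := fun a b h => h.1
  have hgH : ∀ (u : ι) (c : H.Walk u u), c.IsCycle → 2 * r < c.length := by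
    intro u c hc
    have hsub : ∀ e ∈ c.edges, e ∈ G.edgeSet := fun e he =>
      SimpleGraph.edgeSet_mono hHG (c.edges_subset_edgeSet he)
    simpa using hg u (c.transfer G hsub) (hc.transfer hsub)
  let L : ℕ → Finset ι := fun k =>
    S.filter fun u => H.Reachable v u ∧ H.dist v u = k
  have hstep : ∀ k, k + 1 ≤ r → 2 * (L k).card ≤ (L (k + 1)).card := by
    intro k hk
    suffices h : (L k).card * 2 ≤ (L (k + 1)).card * 1 by omega
    apply card_mul_le_card_mul (fun u w => H.Adj u w)
    · intro u hu
      simp only [L, mem_filter] at hu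
      obtain ⟨huS, hru, hdu⟩ := hu
      have h3 := hdeg u huS
      set N := S.filter (G.Adj u) with hN
      have hsplit : N.card ≤
          (bipartiteAbove (fun u w => H.Adj u w) (L (k + 1)) u).card +
            (N.filter fun w => H.dist v w ≤ k).card := by
        calc N.card ≤ (bipartiteAbove (fun u w => H.Adj u w) (L (k + 1)) u ∪
              N.filter fun w => H.dist v w ≤ k).card := by
              apply card_le_card
              intro w hw
              have hw' := mem_filter.mp hw
              have hadj : H.Adj u w := ⟨hw'.2, huS, hw'.1⟩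
              by_cases hwk : H.dist v w ≤ k
              · exact mem_union_right _ (mem_filter.mpr ⟨hw, hwk⟩)
              · apply mem_union_left
                simp only [bipartiteAbove, L, mem_filter]
                refine ⟨⟨hw'.1, hru.trans hadj.reachable, ?_⟩, hadj⟩
                have hd := hadj.diff_dist_adj (u := v)
                omega
          _ ≤ _ := card_union_le _ _
      have hone : (N.filter fun w => H.dist v w ≤ k).card ≤ 1 := by
        rw [card_le_one]
        intro a ha b hb
        simp only [hN, mem_filter] at ha hb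
        have hA : H.Adj a u := ⟨ha.1.2.symm, ha.1.1, huS⟩
        have hB : H.Adj b u := ⟨hb.1.2.symm, hb.1.1, huS⟩
        exact near_nbr_unique hgH hA hB (hru.trans hA.symm.reachable)
          (hru.trans hB.symm.reachable) (by omega) (by omega) (by omega) (by omega)
      omega
    · intro w hw
      rw [card_le_one]
      intro a ha b hb
      simp only [bipartiteBelow, L, mem_filter] at ha hb hw
      exact near_nbr_unique hgH ha.2 hb.2 ha.1.2.1 hb.1.2.1 (by omega) (by omega) (by omega)
        (by omega)
  have hgrow : ∀ k, k ≤ r → 2 ^ k ≤ (L k).card := by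
    intro k
    induction k with
    | zero =>
      intro _
      have : v ∈ L 0 := by simp [L, hv]
      simpa using card_pos.mpr ⟨v, this⟩
    | succ k ih =>
      intro hk
      have h1 := ih (by omega)
      have h2 := hstep k hk
      rw [pow_succ]
      omega
  have h1 := hgrow r le_rfl
  have h2 : (L r).card ≤ Fintype.card ι := card_le_univ _
  omega

/-- Without short cycles there are at most twice as many pairs as points. -/
lemma card_le_two_mul [Fintype ι] [DecidableEq ι] {r : ℕ} (hn : Fintype.card ι < 2 ^ r)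
    (E : Finset (Sym2 ι)) (hdiag : ∀ e ∈ E, ¬ e.IsDiag)
    (hg : ∀ (u : ι) (c : (SimpleGraph.fromEdgeSet (E : Set (Sym2 ι))).Walk u u),
      c.IsCycle → 2 * r < c.length) :
    E.card ≤ 2 * Fintype.card ι := by
  classical
  set G := SimpleGraph.fromEdgeSet (E : Set (Sym2 ι)) with hG
  suffices h : ∀ S : Finset ι, (E.filter fun e => ∀ x ∈ e, x ∈ S).card ≤ 2 * S.card by
    simpa using h univ
  intro S
  induction S using Finset.strongInduction with
  | _ S ih =>
  rcases S.eq_empty_or_nonempty with rfl | hS
  · have : E.filter (fun e => ∀ x ∈ e, x ∈ (∅ : Finset ι)) = ∅ := by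
      apply filter_eq_empty_iff.mpr
      intro e _ h
      induction e using Sym2.ind with
      | _ a b => exact absurd (h a (Sym2.mem_mk_left a b)) (notMem_empty a)
    rw [this]
    simp
  · obtain ⟨v, hv, hdeg⟩ := exists_low_degree hn G S hS hg
    have hsplit : E.filter (fun e => ∀ x ∈ e, x ∈ S) ⊆
        E.filter (fun e => ∀ x ∈ e, x ∈ S.erase v) ∪
          (S.filter (G.Adj v)).image (fun w => s(v, w)) := by
      intro e he
      obtain ⟨heE, heS⟩ := mem_filter.mp he
      by_cases hve : v ∈ e
      · obtain ⟨w, rfl⟩ := hve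
        apply mem_union_right
        refine mem_image.mpr ⟨w, mem_filter.mpr ⟨heS w (Sym2.mem_mk_right v w), ?_⟩, rfl⟩
        rw [hG, SimpleGraph.fromEdgeSet_adj]
        exact ⟨heE, fun h => hdiag _ heE (by simp [h])⟩
      · apply mem_union_left
        exact mem_filter.mpr ⟨heE, fun x hx =>
          mem_erase.mpr ⟨fun h => hve (h ▸ hx), heS x hx⟩⟩
    have h1 := (card_le_card hsplit).trans (card_union_le _ _)
    have h2 := ih _ (erase_ssubset hv)
    have h3 : ((S.filter (G.Adj v)).image (fun w => s(v, w))).card ≤ 2 :=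
      card_image_le.trans hdeg
    have h4 := card_erase_add_one hv
    omega

/-- Main certificate: `E` has at most twice as many pairs as there are points and controls every
pair up to the factor `2 r`, provided the number of points is below `2 ^ r`. -/
theorem exists_sparse_certificate [Fintype ι] [DecidableEq ι] (r : ℕ) (hr : 1 ≤ r)
    (hn : Fintype.card ι < 2 ^ r) (δ : Sym2 ι → ℝ) (hδ : ∀ f, 0 ≤ δ f) :
    ∃ E : Finset (Sym2 ι), (∀ e ∈ E, ¬ e.IsDiag) ∧ E.card ≤ 2 * Fintype.card ι ∧
      ∀ a b : ι, a ≠ b → Controls (2 * r : ℝ) δ E s(a, b) := by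
  classical
  obtain ⟨E, hEs, hctl, hirr⟩ := exists_greedy ((2 * r : ℕ) : ℝ)
    (by exact_mod_cast (by omega : 1 ≤ 2 * r)) δ hδ (univ.filter fun e : Sym2 ι => ¬ e.IsDiag)
  have hdiag : ∀ e ∈ E, ¬ e.IsDiag := fun e he => (mem_filter.mp (hEs he)).2
  refine ⟨E, hdiag, card_le_two_mul hn E hdiag (fun u c hc => ?_), fun a b hab => ?_⟩
  · have := no_short_cycle (2 * r) δ hδ E hirr c hc
    omega
  · have := hctl s(a, b) (mem_filter.mpr ⟨mem_univ _, by simpa using hab⟩)
    simpa using this

end Vale.Agent.P249
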