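import Mathlib
import Vale.Agent.P249.Spanner
import Vale.Agent.P249.Sampling

/-!
# Near-linear dimension reduction in `L_p`

Every `n`-point subset of an `L_p` space embeds with distortion `D > 1` into `ℓ_p^d` with
`d ≤ C n (log n) ^ (p + 1)`: choose a sparse spanner of the finite metric, and sample coordinates
with density proportional to the sum over spanner edges of the normalised edge profiles.
-/

namespace Vale.Agent.P249.NearLinear

open Finset MeasureTheory Vale.Agent.P249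

variable {Ω : Type*} [MeasurableSpace Ω] {μ : Measure Ω}

/-- The `p`-th power of the norm of a difference, as an integral of representatives. -/
lemma norm_sub_rpow (p : ℝ) (hp : 1 ≤ p) (u v : Lp ℝ (ENNReal.ofReal p) μ) :
    Integrable (fun ω => |u ω - v ω| ^ p) μ ∧
      ∫ ω, |u ω - v ω| ^ p ∂μ = ‖u - v‖ ^ p := by
  have hp0 : 0 < p := by linarith
  have hne : ENNReal.ofReal p ≠ 0 := by simp [hp0]
  have htr : (ENNReal.ofReal p).toReal = p := ENNReal.toReal_ofReal hp0.le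
  have hae : (fun ω => |u ω - v ω| ^ p) =ᵐ[μ] fun ω => ‖(u - v) ω‖ ^ p := by
    filter_upwards [Lp.coeFn_sub u v] with ω hω
    rw [hω]
    simp [Real.norm_eq_abs]
  have hmem : MemLp (u - v : Lp ℝ (ENNReal.ofReal p) μ) (ENNReal.ofReal p) μ := Lp.memLp _
  have hint : Integrable (fun ω => ‖(u - v) ω‖ ^ p) μ := by
    simpa [htr] using hmem.integrable_norm_rpow hne ENNReal.ofReal_ne_top
  refine ⟨hint.congr hae.symm, ?_⟩
  rw [integral_congr_ae hae, Lp.norm_def,
    hmem.eLpNorm_eq_integral_rpow_norm hne ENNReal.ofReal_ne_top, htr,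
    ENNReal.toReal_ofReal (by positivity)]
  rw [← Real.rpow_mul (by positivity), inv_mul_cancel₀ hp0.ne', Real.rpow_one]

/-- The embedding for pairwise distinct points, with explicit parameters. -/
lemma embed_distinct (p : ℝ) (hp : 1 ≤ p) {ι : Type*} [Fintype ι] [DecidableEq ι] [Nontrivial ι]
    (g : ι → Lp ℝ (ENNReal.ofReal p) μ) (hg : Function.Injective g) (r : ℕ) (hr : 1 ≤ r)
    (hn : Fintype.card ι < 2 ^ r) (η : ℝ) (hη0 : 0 < η) (hη1 : η ≤ 1) (m : ℕ)
    (hm : 2 * (Fintype.card ι : ℝ) ^ 2 <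
      Real.exp (η ^ 2 / (4 * ((2 * r : ℝ) ^ p * (2 * Fintype.card ι))) * m)) :
    ∃ f : ι → Fin m → ℝ, ∀ a b,
      (1 - η) * ‖g a - g b‖ ^ p ≤ ∑ l, |f a l - f b l| ^ p ∧
        ∑ l, |f a l - f b l| ^ p ≤ (1 + η) * ‖g a - g b‖ ^ p := by
  classical
  have hp0 : 0 < p := by linarith
  have : Fact (1 ≤ ENNReal.ofReal p) := ⟨by simpa using hp⟩
  set δ : Sym2 ι → ℝ :=
    Sym2.lift ⟨fun a b => ‖g a - g b‖, fun a b => norm_sub_rev (g a) (g b)⟩ with hδdef
  have hδ : ∀ f, 0 ≤ δ f := by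
    intro f
    induction f using Sym2.ind with
    | _ a b =>
      simp only [hδdef, Sym2.lift_mk]
      rw [Lp.norm_def]
      exact ENNReal.toReal_nonneg
  obtain ⟨E, hdiag, hcard, hctl⟩ := exists_sparse_certificate r hr hn δ hδ
  have hpos : ∀ a b, a ≠ b → 0 < δ s(a, b) := by
    intro a b hab
    refine (hδ _).lt_of_ne fun h => hab (hg ?_)
    simp only [hδdef, Sym2.lift_mk] at h
    exact sub_eq_zero.mp ((Lp.norm_eq_zero_iff (by simp [hp0])).mp h.symm)
  set ψ : Sym2 ι → Ω → ℝ := fun e ω => gap (fun a => g a ω) e ^ p / δ e ^ p with hψ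
  set ρ : Ω → ℝ := fun ω => ∑ e ∈ E, ψ e ω with hρ
  have hgap0 : ∀ (z : ι → ℝ) e, 0 ≤ gap z e := by
    intro z e
    induction e using Sym2.ind with
    | _ a b => simp
  have hψ0 : ∀ e ω, 0 ≤ ψ e ω := fun e ω => by
    simp only [hψ]
    exact div_nonneg (Real.rpow_nonneg (hgap0 _ e) _) (Real.rpow_nonneg (hδ e) _)
  have hgm : ∀ a, Measurable fun ω => g a ω := fun a => (Lp.stronglyMeasurable (g a)).measurable
  have hψm : ∀ e, Measurable (ψ e) := by
    intro e
    induction e using Sym2.ind with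
    | _ a b =>
      simp only [hψ, gap_mk]
      exact (((hgm a).sub (hgm b)).abs.pow_const p).div_const _
  have hψi : ∀ a b, a ≠ b → Integrable (ψ s(a, b)) μ ∧ ∫ ω, ψ s(a, b) ω ∂μ = 1 := by
    intro a b hab
    obtain ⟨hi, he⟩ := norm_sub_rpow p hp (g a) (g b)
    have hne : δ s(a, b) ^ p ≠ 0 := (Real.rpow_pos_of_pos (hpos a b hab) p).ne'
    simp only [hψ, gap_mk]
    refine ⟨hi.div_const _, ?_⟩
    rw [integral_div, he]
    simpa [hδdef] using div_self hne
  have hψE : ∀ e ∈ E, Integrable (ψ e) μ ∧ ∫ ω, ψ e ω ∂μ = 1 := by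
    intro e he
    induction e using Sym2.ind with
    | _ a b => exact hψi a b (by simpa using hdiag _ he)
  have hρint : ∫ ω, ρ ω ∂μ = E.card := by
    simp only [hρ]
    rw [integral_finsetSum _ fun e he => (hψE e he).1, sum_congr rfl fun e he => (hψE e he).2]
    simp
  have hρ0 : ∀ ω, 0 ≤ ρ ω := fun ω => sum_nonneg fun e _ => hψ0 e ω
  let κ := {q : ι × ι // q.1 ≠ q.2}
  let φ : κ → Ω → ℝ := fun k ω => ψ s(k.1.1, k.1.2) ω
  have hdom : ∀ (k : κ) ω, φ k ω ≤ (2 * r : ℝ) ^ p * ρ ω := by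
    rintro ⟨⟨a, b⟩, hab⟩ ω
    have hM0 : 0 ≤ ρ ω ^ p⁻¹ := Real.rpow_nonneg (hρ0 ω) _
    have h := hctl a b hab (fun a => g a ω) (ρ ω ^ p⁻¹) hM0 (by
      intro e he
      induction e using Sym2.ind with
      | _ c d =>
        have hcd : c ≠ d := by simpa using hdiag _ he
        have h1 : ψ s(c, d) ω ≤ ρ ω := single_le_sum (fun e _ => hψ0 e ω) he
        simp only [hψ, gap_mk] at h1 ⊢
        rw [div_le_iff₀ (Real.rpow_pos_of_pos (hpos c d hcd) p)] at h1
        have h2 := Real.rpow_le_rpow (by positivity) h1 (inv_nonneg.mpr hp0.le)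
        rwa [← Real.rpow_mul (abs_nonneg _), mul_inv_cancel₀ hp0.ne', Real.rpow_one,
          Real.mul_rpow (hρ0 ω) (Real.rpow_nonneg (hδ _) _), ← Real.rpow_mul (hδ _),
          mul_inv_cancel₀ hp0.ne', Real.rpow_one] at h2)
    simp only [φ, hψ]
    rw [gap_mk] at h ⊢
    rw [div_le_iff₀ (Real.rpow_pos_of_pos (hpos a b hab) p)]
    refine (Real.rpow_le_rpow (abs_nonneg _) h hp0.le).trans (le_of_eq ?_)
    rw [Real.mul_rpow (by positivity) (hδ _), Real.mul_rpow (by positivity) hM0,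
      ← Real.rpow_mul (hρ0 ω), inv_mul_cancel₀ hp0.ne', Real.rpow_one]
  have hρpos : 0 < ∫ ω, ρ ω ∂μ := by
    rw [hρint]
    have : E.Nonempty := by
      by_contra hne
      rw [not_nonempty_iff_eq_empty] at hne
      obtain ⟨a, b, hab⟩ := exists_pair_ne ι
      have hd : ∀ ω, φ ⟨(a, b), hab⟩ ω = 0 := fun ω => le_antisymm
        (by simpa [hρ, hne] using hdom ⟨(a, b), hab⟩ ω) (hψ0 _ _)
      have h1 := (hψi a b hab).2
      simp only [φ] at hd
      simp [hd] at h1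
    exact_mod_cast this.card_pos
  have hT : 0 < (2 * r : ℝ) ^ p :=
    Real.rpow_pos_of_pos (by exact_mod_cast (by omega : 0 < 2 * r)) p
  have hκ : (Fintype.card κ : ℝ) ≤ (Fintype.card ι : ℝ) ^ 2 := by
    have h := Fintype.card_subtype_le (fun q : ι × ι => q.1 ≠ q.2)
    rw [Fintype.card_prod] at h
    rw [pow_two]
    exact_mod_cast h
  obtain ⟨ω, w, hw, hwk⟩ := exists_sample μ ρ φ ((2 * r : ℝ) ^ p) (2 * Fintype.card ι) η
    hT hη0 hη1 (Finset.measurable_fun_sum _ fun e _ => hψm e) hρ0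
    (integrable_finsetSum _ fun e he => (hψE e he).1)
    (by rw [hρint]; exact_mod_cast hcard) hρpos (fun k => hψm _) (fun k => hψ0 _) hdom
    (fun k => (hψi _ _ k.2).2) m (lt_of_le_of_lt (by linarith) hm)
  refine ⟨fun a l => w l ^ p⁻¹ * g a (ω l), fun a b => ?_⟩
  rcases eq_or_ne a b with rfl | hab
  · simp [Real.zero_rpow hp0.ne']
  · have hD : ‖g a - g b‖ = δ s(a, b) := rfl
    have hDp : 0 < δ s(a, b) ^ p := Real.rpow_pos_of_pos (hpos a b hab) p
    have key : ∑ l, |w l ^ p⁻¹ * g a (ω l) - w l ^ p⁻¹ * g b (ω l)| ^ p =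
        δ s(a, b) ^ p * ∑ l, w l * φ ⟨(a, b), hab⟩ (ω l) := by
      rw [mul_sum]
      refine sum_congr rfl fun l _ => ?_
      rw [← mul_sub, abs_mul, abs_of_nonneg (Real.rpow_nonneg (hw l) _),
        Real.mul_rpow (Real.rpow_nonneg (hw l) _) (abs_nonneg _),
        ← Real.rpow_mul (hw l), inv_mul_cancel₀ hp0.ne', Real.rpow_one]
      simp only [φ, hψ, gap_mk]
      field_simp
    obtain ⟨h1, h2⟩ := hwk ⟨(a, b), hab⟩
    rw [key, hD]
    constructor
    · rw [mul_comm]; exact mul_le_mul_of_nonneg_left h1 hDp.le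
    · rw [mul_comm (1 + η)]; exact mul_le_mul_of_nonneg_left h2 hDp.le

/-- For `1 ≤ p` and `D > 1`, every `n`-point subset of every `L_p(μ)` has a map into `ℓ_p^d` of
distortion at most `D` with `d ≤ C n (log n) ^ (p + 1)`. -/
theorem nearLinear (p : ℝ) (hp : 1 ≤ p) (D : ℝ) (hD : 1 < D) :
    ∃ C : ℝ, ∀ (Ω : Type*) (_ : MeasurableSpace Ω) (μ : Measure Ω)
      (X : Finset (Lp ℝ (ENNReal.ofReal p) μ)), 2 ≤ X.card →
      ∃ d : ℕ, (d : ℝ) ≤ C * X.card * Real.log X.card ^ (p + 1) ∧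
        ∃ (f : Lp ℝ (ENNReal.ofReal p) μ → Fin d → ℝ) (s : ℝ), 0 < s ∧
          ∀ x ∈ X, ∀ y ∈ X, s * ‖x - y‖ ≤ (∑ k, |f x k - f y k| ^ p) ^ (1 / p) ∧
            (∑ k, |f x k - f y k| ^ p) ^ (1 / p) ≤ D * s * ‖x - y‖ := by
  classical
  have hp0 : 0 < p := by linarith
  set η := (D - 1) / (D + 1) with hηdef
  have hη0 : 0 < η := div_pos (by linarith) (by linarith)
  have hη1 : η < 1 := by rw [hηdef, div_lt_one (by linarith)]; linarith
  set c := 1 / Real.log 2 with hc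
  have hl2 : 0 < Real.log 2 := Real.log_pos (by norm_num)
  refine ⟨8 / η ^ 2 * (4 * c) ^ p * (3 + c) + c ^ (p + 1), fun Ω _ μ X hX => ?_⟩
  set N : ℕ := X.card with hN
  set L := Real.log (N : ℝ) with hL
  have hN2 : (2 : ℝ) ≤ N := by exact_mod_cast hX
  have hLlow : Real.log 2 ≤ L := Real.log_le_log (by norm_num) hN2
  have hcL : 1 ≤ c * L := by
    rw [hc, one_div, ← div_eq_inv_mul, le_div_iff₀ hl2]; simpa using hLlow
  have hL0 : 0 < L := hl2.trans_le hLlow
  set r := Nat.log 2 N + 1 with hr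
  have hNr : N < 2 ^ r := Nat.lt_pow_succ_log_self (by norm_num) N
  have hrL : (2 * r : ℝ) ≤ 4 * c * L := by
    have h1 : ((Nat.log 2 N : ℕ) : ℝ) ≤ c * L := by
      have h2 : ((2 : ℝ) ^ Nat.log 2 N) ≤ N := by
        exact_mod_cast Nat.pow_log_le_self 2 (by omega)
      have h3 := Real.log_le_log (by positivity) h2
      rw [Real.log_pow] at h3
      rw [hc, one_div, ← div_eq_inv_mul, le_div_iff₀ hl2]
      exact h3
    rw [hr]
    push_cast
    linarith
  set A := 4 * ((2 * r : ℝ) ^ p * (2 * N)) / η ^ 2 with hA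
  have hA0 : 0 < A := by
    have : (0 : ℝ) < 2 * r := by exact_mod_cast (by omega : 0 < 2 * r)
    positivity
  set m := ⌊A * Real.log (2 * (N : ℝ) ^ 2)⌋₊ + 1 with hmdef
  have hlog : Real.log (2 * (N : ℝ) ^ 2) ≤ 3 * L := by
    rw [Real.log_mul (by norm_num) (by positivity), Real.log_pow]
    push_cast
    rw [← hL]
    linarith
  have hlog0 : 0 ≤ Real.log (2 * (N : ℝ) ^ 2) := Real.log_nonneg (by nlinarith)
  have hm : 2 * (N : ℝ) ^ 2 < Real.exp (η ^ 2 / (4 * ((2 * r : ℝ) ^ p * (2 * N))) * m) := by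
    rw [← Real.log_lt_iff_lt_exp (by positivity)]
    have h1 : η ^ 2 / (4 * ((2 * r : ℝ) ^ p * (2 * N))) = A⁻¹ := by rw [hA, inv_div]
    rw [h1, ← div_eq_inv_mul, lt_div_iff₀ hA0, hmdef]
    push_cast
    rw [mul_comm]
    exact Nat.lt_floor_add_one _
  have hd : (m : ℝ) ≤ (8 / η ^ 2 * (4 * c) ^ p * (3 + c) + c ^ (p + 1)) * N * L ^ (p + 1) := by
    have hc0 : 0 < c := div_pos one_pos hl2
    have h1 : (m : ℝ) ≤ A * (3 * L) + 1 := by
      have h := Nat.floor_le (mul_nonneg hA0.le hlog0)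
      have h' := mul_le_mul_of_nonneg_left hlog hA0.le
      rw [hmdef]
      push_cast
      linarith
    have h2 : A ≤ 8 / η ^ 2 * (4 * c) ^ p * N * L ^ p := by
      have h := Real.rpow_le_rpow (by positivity) hrL hp0.le
      rw [Real.mul_rpow (by positivity) hL0.le] at h
      calc A = 8 / η ^ 2 * N * (2 * r : ℝ) ^ p := by rw [hA]; ring
        _ ≤ 8 / η ^ 2 * N * ((4 * c) ^ p * L ^ p) :=
            mul_le_mul_of_nonneg_left h (by positivity)
        _ = _ := by ring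
    have h3 : L ^ (p + 1) = L ^ p * L := by
      rw [Real.rpow_add hL0, Real.rpow_one]
    have h4 : 1 ≤ c ^ (p + 1) * N * L ^ (p + 1) := by
      have h := Real.one_le_rpow hcL (by linarith : 0 ≤ p + 1)
      rw [Real.mul_rpow hc0.le hL0.le] at h
      nlinarith [mul_le_mul_of_nonneg_right hN2 (zero_le_one.trans h)]
    have h5 : A * (3 * L) ≤ 8 / η ^ 2 * (4 * c) ^ p * 3 * N * L ^ (p + 1) := by
      rw [h3]
      nlinarith [mul_le_mul_of_nonneg_right h2 (by positivity : (0 : ℝ) ≤ 3 * L)]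
    have h6 : 0 ≤ 8 / η ^ 2 * (4 * c) ^ p * c * N * L ^ (p + 1) := by positivity
    linarith
  refine ⟨m, hd, ?_⟩
  let g : X → Lp ℝ (ENNReal.ofReal p) μ := fun a => a
  have : Nontrivial X := by
    rw [← Fintype.one_lt_card_iff_nontrivial, Fintype.card_coe]; omega
  obtain ⟨f, hf⟩ := embed_distinct p hp g Subtype.coe_injective r (by omega)
    (by rw [Fintype.card_coe]; exact hNr) η hη0 hη1.le m
    (by rw [Fintype.card_coe]; exact hm)
  refine ⟨fun x => if h : x ∈ X then f ⟨x, h⟩ else 0, (1 - η) ^ p⁻¹,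
    Real.rpow_pos_of_pos (by linarith) _, fun x hx y hy => ?_⟩
  obtain ⟨h1, h2⟩ := hf ⟨x, hx⟩ ⟨y, hy⟩
  simp only [g] at h1 h2
  simp only [dif_pos hx, dif_pos hy, one_div]
  have hnn : 0 ≤ ‖x - y‖ := by rw [Lp.norm_def]; exact ENNReal.toReal_nonneg
  have e1 : ∀ a : ℝ, 0 ≤ a → (a * ‖x - y‖ ^ p) ^ p⁻¹ = a ^ p⁻¹ * ‖x - y‖ := by
    intro a ha
    rw [Real.mul_rpow ha (Real.rpow_nonneg hnn _), ← Real.rpow_mul hnn,
      mul_inv_cancel₀ hp0.ne', Real.rpow_one]
  have hs0 : 0 ≤ ∑ l, |f ⟨x, hx⟩ l - f ⟨y, hy⟩ l| ^ p :=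
    sum_nonneg fun l _ => Real.rpow_nonneg (abs_nonneg _) _
  constructor
  · rw [← e1 _ (by linarith)]
    exact Real.rpow_le_rpow (mul_nonneg (by linarith) (Real.rpow_nonneg hnn _)) h1
      (inv_nonneg.mpr hp0.le)
  · have h3 := Real.rpow_le_rpow hs0 h2 (inv_nonneg.mpr hp0.le)
    rw [e1 _ (by linarith)] at h3
    refine h3.trans (mul_le_mul_of_nonneg_right ?_ hnn)
    have h4 : 1 + η = D * (1 - η) := by
      rw [hηdef]
      have : D + 1 ≠ 0 := by linarith
      field_simp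
      ring
    rw [h4, Real.mul_rpow (by linarith) (by linarith)]
    refine mul_le_mul_of_nonneg_right ?_ (Real.rpow_nonneg (by linarith) _)
    calc D ^ p⁻¹ ≤ D ^ (1 : ℝ) :=
          Real.rpow_le_rpow_of_exponent_le hD.le (inv_le_one_of_one_le₀ hp)
      _ = D := Real.rpow_one D

end Vale.Agent.P249.NearLinear
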